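import Vale.Agent.P231.ChW.Gda

/-!
# P231, stage 2, block X1 (part 3): complexification of a real algebra
-/

set_option linter.unusedSectionVars false
set_option linter.unusedVariables false

open Matrix

namespace Vale.Agent.P231.ChW

/-- elements `re + i im` with `re`, `im` in `A` -/
@[ext] structure Cx (A : Type*) where
  /-- real part -/
  re : A
  /-- imaginary part -/
  im : A

namespace Cx

variable {A B : Type*}

section Ring

variable [Ring A] [Ring B]

instance : Zero (Cx A) := ⟨⟨0, 0⟩⟩
instance : One (Cx A) := ⟨⟨1, 0⟩⟩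
instance : Add (Cx A) := ⟨fun z w => ⟨z.re + w.re, z.im + w.im⟩⟩
instance : Neg (Cx A) := ⟨fun z => ⟨-z.re, -z.im⟩⟩
instance : Sub (Cx A) := ⟨fun z w => ⟨z.re - w.re, z.im - w.im⟩⟩
instance : Mul (Cx A) := ⟨fun z w => ⟨z.re * w.re - z.im * w.im, z.re * w.im + z.im * w.re⟩⟩

@[simp] theorem zero_re : (0 : Cx A).re = 0 := rfl
@[simp] theorem zero_im : (0 : Cx A).im = 0 := rfl
@[simp] theorem one_re : (1 : Cx A).re = 1 := rfl
@[simp] theorem one_im : (1 : Cx A).im = 0 := rfl
@[simp] theorem add_re (z w : Cx A) : (z + w).re = z.re + w.re := rfl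
@[simp] theorem add_im (z w : Cx A) : (z + w).im = z.im + w.im := rfl
@[simp] theorem neg_re (z : Cx A) : (-z).re = -z.re := rfl
@[simp] theorem neg_im (z : Cx A) : (-z).im = -z.im := rfl
@[simp] theorem sub_re (z w : Cx A) : (z - w).re = z.re - w.re := rfl
@[simp] theorem sub_im (z w : Cx A) : (z - w).im = z.im - w.im := rfl
@[simp] theorem mul_re (z w : Cx A) : (z * w).re = z.re * w.re - z.im * w.im := rfl
@[simp] theorem mul_im (z w : Cx A) : (z * w).im = z.re * w.im + z.im * w.re := rfl

instance : AddCommGroup (Cx A) where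
  add_assoc a b c := by ext <;> simp [add_assoc]
  zero_add a := by ext <;> simp
  add_zero a := by ext <;> simp
  add_comm a b := by ext <;> simp [add_comm]
  neg_add_cancel a := by ext <;> simp
  sub_eq_add_neg a b := by ext <;> simp [sub_eq_add_neg]
  nsmul := nsmulRec
  zsmul := zsmulRec

instance : Ring (Cx A) where
  mul_assoc a b c := by ext <;> simp <;> noncomm_ring
  one_mul a := by ext <;> simp
  mul_one a := by ext <;> simp
  zero_mul a := by ext <;> simp
  mul_zero a := by ext <;> simp
  left_distrib a b c := by ext <;> simp <;> noncomm_ring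
  right_distrib a b c := by ext <;> simp <;> noncomm_ring
  zsmul := zsmulRec
  neg_add_cancel a := neg_add_cancel a
  sub_eq_add_neg a b := sub_eq_add_neg a b

/-- componentwise map -/
def mapf (f : A → B) (z : Cx A) : Cx B := ⟨f z.re, f z.im⟩

@[simp] theorem mapf_re (f : A → B) (z : Cx A) : (mapf f z).re = f z.re := rfl
@[simp] theorem mapf_im (f : A → B) (z : Cx A) : (mapf f z).im = f z.im := rfl

/-- complexification of an additive map -/
def mapA (f : A →+ B) : Cx A →+ Cx B where
  toFun := mapf f
  map_zero' := by ext <;> simp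
  map_add' z w := by ext <;> simp

/-- complexification of a ring homomorphism -/
def mapR (f : A →+* B) : Cx A →+* Cx B where
  toFun := mapf f
  map_zero' := by ext <;> simp
  map_add' z w := by ext <;> simp
  map_one' := by ext <;> simp
  map_mul' z w := by ext <;> simp

@[simp] theorem mapA_apply (f : A →+ B) (z : Cx A) : mapA f z = mapf f z := rfl
@[simp] theorem mapR_apply (f : A →+* B) (z : Cx A) : mapR f z = mapf f z := rfl

/-- the real elements -/
def of : A →+* Cx A where
  toFun a := ⟨a, 0⟩
  map_zero' := rfl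
  map_add' a b := by ext <;> simp
  map_one' := rfl
  map_mul' a b := by ext <;> simp

@[simp] theorem of_re (a : A) : (of a).re = a := rfl
@[simp] theorem of_im (a : A) : (of a).im = 0 := rfl

theorem mapf_of (f : A → B) (hf : f 0 = 0) (a : A) : mapf f (of a) = of (f a) := by
  ext <;> simp [hf]

/-- conjugation -/
def conj : Cx A →+* Cx A where
  toFun z := ⟨z.re, -z.im⟩
  map_zero' := by ext <;> simp
  map_add' a b := by ext <;> simp [add_comm]
  map_one' := by ext <;> simp
  map_mul' a b := by ext <;> simp [add_comm]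

@[simp] theorem conj_re (z : Cx A) : (conj z).re = z.re := rfl
@[simp] theorem conj_im (z : Cx A) : (conj z).im = -z.im := rfl
@[simp] theorem conj_conj (z : Cx A) : conj (conj z) = z := by ext <;> simp
@[simp] theorem conj_of (a : A) : conj (of a) = of a := by ext <;> simp

theorem mapf_conj (f : A → B) (hf : ∀ a, f (-a) = -f a) (z : Cx A) :
    mapf f (conj z) = conj (mapf f z) := by
  ext <;> simp [hf]

end Ring

section Algebra

variable [Ring A] [Algebra ℝ A] [Ring B] [Algebra ℝ B]

instance : SMul ℂ (Cx A) :=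
  ⟨fun c z => ⟨c.re • z.re - c.im • z.im, c.re • z.im + c.im • z.re⟩⟩

@[simp] theorem smul_re (c : ℂ) (z : Cx A) : (c • z).re = c.re • z.re - c.im • z.im := rfl
@[simp] theorem smul_im (c : ℂ) (z : Cx A) : (c • z).im = c.re • z.im + c.im • z.re := rfl

instance : Module ℂ (Cx A) where
  one_smul z := by ext <;> simp
  mul_smul a b z := by
    ext
    · simp only [smul_re, smul_im, Complex.mul_re, Complex.mul_im, sub_smul, add_smul, smul_sub,
        smul_add, mul_smul]
      abel
    · simp only [smul_re, smul_im, Complex.mul_re, Complex.mul_im, sub_smul, add_smul, smul_sub,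
        smul_add, mul_smul]
      abel
  smul_zero a := by ext <;> simp
  smul_add a z w := by
    ext <;> simp only [smul_re, smul_im, add_re, add_im, smul_add] <;> abel
  add_smul a b z := by
    ext <;> simp only [smul_re, smul_im, add_re, add_im, Complex.add_re, Complex.add_im, add_smul]
      <;> abel
  zero_smul z := by ext <;> simp

instance : Algebra ℂ (Cx A) :=
  Algebra.ofModule
    (fun c z w => by
      ext
      · simp only [smul_re, smul_im, mul_re, mul_im, sub_mul, add_mul, smul_mul_assoc, smul_sub,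
          smul_add]
        abel
      · simp only [smul_re, smul_im, mul_re, mul_im, sub_mul, add_mul, smul_mul_assoc, smul_sub,
          smul_add]
        abel)
    (fun c z w => by
      ext
      · simp only [smul_re, smul_im, mul_re, mul_im, mul_sub, mul_add, mul_smul_comm, smul_sub,
          smul_add]
        abel
      · simp only [smul_re, smul_im, mul_re, mul_im, mul_sub, mul_add, mul_smul_comm, smul_sub,
          smul_add]
        abel)

theorem conj_smul (c : ℂ) (z : Cx A) : conj (c • z) = (starRingEnd ℂ c) • conj z := by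
  ext <;> simp [add_comm, sub_eq_add_neg]

theorem mapf_smul (f : A → B) (h1 : ∀ a b, f (a + b) = f a + f b)
    (h2 : ∀ (c : ℝ) a, f (c • a) = c • f a) (c : ℂ) (z : Cx A) : mapf f (c • z) = c • mapf f z := by
  have h3 : ∀ a, f (-a) = -f a := fun a => by
    rw [← neg_one_smul ℝ a, h2, neg_one_smul]
  ext
  · simp only [mapf_re, smul_re, sub_eq_add_neg, h1, h3, h2, mapf_im]
  · simp only [mapf_re, smul_im, h1, h2, mapf_im]

end Algebra

/-! ### graded structure -/

instance [Ring A] [GDA A] : GDA (Cx A) where
  d := mapA GDA.d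
  sg := mapR GDA.sg
  sg_sg z := by ext <;> simp [GDA.sg_sg]
  d_mul z w := by
    ext
    · simp only [mapA_apply, mapf_re, mul_re, map_sub, GDA.d_mul, mapR_apply, add_re, mapf_im]
      abel
    · simp only [mapA_apply, mapf_re, mul_im, map_add, GDA.d_mul, mapR_apply, add_im, mapf_im]
      abel
  d_sg z := by ext <;> simp [GDA.d_sg]
  d_d z := by ext <;> simp [GDA.d_d]
  even z w h := by
    have h1 : GDA.sg z.re = z.re := congrArg re h
    have h2 : GDA.sg z.im = z.im := congrArg im h
    ext
    · simp only [mul_re, GDA.even _ _ h1, GDA.even _ _ h2]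
    · simp only [mul_im, GDA.even _ _ h1, GDA.even _ _ h2]
      rw [add_comm]
  odd z w h := by
    have h1 : GDA.sg z.re = -z.re := congrArg re h
    have h2 : GDA.sg z.im = -z.im := congrArg im h
    ext
    · simp only [mul_re, GDA.odd _ _ h1, GDA.odd _ _ h2, mapR_apply, mapf_re, mapf_im]
    · simp only [mul_im, GDA.odd _ _ h1, GDA.odd _ _ h2, mapR_apply, mapf_re, mapf_im]
      rw [add_comm]

section

variable [Ring A] [GDA A]

@[simp] theorem d_re (z : Cx A) : (GDA.d z).re = GDA.d z.re := rfl
@[simp] theorem d_im (z : Cx A) : (GDA.d z).im = GDA.d z.im := rfl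
@[simp] theorem sg_re (z : Cx A) : (GDA.sg z).re = GDA.sg z.re := rfl
@[simp] theorem sg_im (z : Cx A) : (GDA.sg z).im = GDA.sg z.im := rfl

theorem d_of (a : A) : GDA.d (of a) = of (GDA.d a) := by ext <;> simp
theorem sg_of (a : A) : GDA.sg (of a) = of (GDA.sg a) := by ext <;> simp
theorem d_conj (z : Cx A) : GDA.d (conj z) = conj (GDA.d z) := by ext <;> simp
theorem sg_conj (z : Cx A) : GDA.sg (conj z) = conj (GDA.sg z) := by ext <;> simp

end

end Cx

/-! ### naturality -/

section Nat

variable {A B : Type*} [Ring A] [GDA A] [Ring B] [GDA B]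
variable {m n : Type*} [Fintype m] [Fintype n] [DecidableEq m] [DecidableEq n]

/-- naturality of the Chern character forms -/
theorem map_ch (f : A →+* B) (hd : ∀ a, f (GDA.d a) = GDA.d (f a)) (k : ℕ) (P : Matrix n n A) :
    f (ch k P) = ch k (P.map f) := by
  have h1 : (dM P).map f = dM (P.map f) := by
    ext i j; simp [hd]
  have h2 : (dd P).map f = dd (P.map f) := by
    rw [dd, dd, Matrix.map_mul, h1]
  have h3 : ∀ M : Matrix n n A, f (trace M) = trace (M.map f) := fun M => by
    rw [trace, map_sum]; rfl
  rw [ch, h3, Matrix.map_mul, ch]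
  have h4 : (dd P ^ k).map f = dd (P.map f) ^ k := by
    have := map_pow f.mapMatrix (dd P) k
    rw [RingHom.mapMatrix_apply, RingHom.mapMatrix_apply, h2] at this
    exact this
  rw [h4]

theorem Idem.map (f : A →+* B) (hs : ∀ a, f (GDA.sg a) = GDA.sg (f a)) {P : Matrix n n A}
    (hP : Idem P) : Idem (P.map f) := by
  refine ⟨?_, ?_⟩
  · unfold Ev
    ext i j
    rw [sM_apply, Matrix.map_apply, ← hs, hP.ev.apply]
  · rw [← Matrix.map_mul, hP.idem]

/-- entrywise conjugation -/
def cj (P : Matrix m n (Cx A)) : Matrix m n (Cx A) := P.map Cx.conj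

theorem Idem.cj {P : Matrix n n (Cx A)} (hP : Idem P) : Idem (cj P) :=
  hP.map Cx.conj fun a => (Cx.sg_conj a).symm

theorem ch_cj (k : ℕ) (P : Matrix n n (Cx A)) : ch k (cj P) = Cx.conj (ch k P) :=
  (map_ch Cx.conj (fun a => (Cx.d_conj a).symm) k P).symm

/-- hermitian idempotents have real Chern forms, after multiplication with `i^k` -/
theorem conj_ch_of_herm [Algebra ℝ A] {P : Matrix n n (Cx A)} (hP : Idem P) (h : Pᵀ = cj P) (k : ℕ) :
    Cx.conj ((Complex.I ^ k) • ch k P) = (Complex.I ^ k) • ch k P := by
  have h1 := ch_transpose hP k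
  rw [h, ch_cj] at h1
  rw [Cx.conj_smul, h1, map_pow, Complex.conj_I]
  have h2 : ((-1 : Cx A) ^ k * ch k P) = ((-1 : ℂ) ^ k) • ch k P := by
    rw [Algebra.smul_def, map_pow, map_neg, map_one]
  rw [h2, smul_smul, ← mul_pow, neg_mul, mul_neg, neg_neg, mul_one]

/-- real idempotents -/
theorem ch_of (k : ℕ) (P : Matrix n n A) : ch k (P.map Cx.of) = Cx.of (ch k P) :=
  (map_ch Cx.of (fun a => (Cx.d_of a).symm) k P).symm

end Nat

end Vale.Agent.P231.ChW
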