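import Vale.Agent.P231.ChW.Tens
import Vale.Agent.P231.ChW.Cx
import Vale.Agent.P231.H584.Ops

/-!
# P231, stage 2, block X1 (part 4): Chern character forms on diffeological spaces;
homotopy and isomorphism invariance, basic forms
-/

set_option linter.unusedSectionVars false
set_option linter.unusedVariables false

open Matrix Set Filter Topology
open scoped ContDiff

namespace Vale.Agent.P231.ChW

open Fm W

/-! ### rotation homotopy, abstractly -/

section Abs

variable {A : Type*} [Ring A] [GDA A]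
variable {m n l : Type*} [Fintype m] [Fintype n] [Fintype l] [DecidableEq m] [DecidableEq n]

theorem smul_mul_smul_of {c d : A} (hd : ∀ a, d * a = a * d) (M : Matrix m n A)
    (N : Matrix n l A) : (c • M) * (d • N) = (c * d) • (M * N) := by
  ext i j
  simp only [Matrix.mul_apply, Matrix.smul_apply, smul_eq_mul, Finset.mul_sum]
  refine Finset.sum_congr rfl fun k _ => ?_
  rw [mul_assoc, ← mul_assoc (M i k), ← hd, mul_assoc, mul_assoc]

theorem Ev.smul {c : A} (hc : GDA.sg c = c) {M : Matrix m n A} (hM : Ev M) : Ev (c • M) := by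
  unfold Ev
  ext i j
  simp only [sM_apply, Matrix.smul_apply, smul_eq_mul, map_mul, hc, hM.apply]

/-- the data of an isomorphism between two idempotents -/
structure IsoData (P : Matrix n n A) (Q : Matrix m m A) (a : Matrix m n A) (b : Matrix n m A) :
    Prop where
  evP : Ev P
  evQ : Ev Q
  eva : Ev a
  evb : Ev b
  ab : a * b = Q
  ba : b * a = P
  aP : a * P = a
  Qa : Q * a = a
  bQ : b * Q = b
  Pb : P * b = b

theorem IsoData.idemP {P : Matrix n n A} {Q : Matrix m m A} {a : Matrix m n A} {b : Matrix n m A}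
    (h : IsoData P Q a b) : Idem P :=
  ⟨h.evP, by rw [← h.ba, Matrix.mul_assoc, ← Matrix.mul_assoc a, h.ab, h.Qa]⟩

theorem IsoData.idemQ {P : Matrix n n A} {Q : Matrix m m A} {a : Matrix m n A} {b : Matrix n m A}
    (h : IsoData P Q a b) : Idem Q :=
  ⟨h.evQ, by rw [← h.ab, Matrix.mul_assoc, ← Matrix.mul_assoc b, h.ba, h.Pb]⟩

/-- the rotation between two isomorphic idempotents -/
def rotM (c s : A) (P : Matrix n n A) (Q : Matrix m m A) (a : Matrix m n A) (b : Matrix n m A) :
    Matrix (n ⊕ m) (n ⊕ m) A :=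
  fromBlocks ((c * c) • P) ((c * s) • b) ((c * s) • a) ((s * s) • Q)

theorem idem_rotM {c s : A} (hc : GDA.sg c = c) (hs : GDA.sg s = s) (h1 : c * c + s * s = 1)
    {P : Matrix n n A} {Q : Matrix m m A} {a : Matrix m n A} {b : Matrix n m A}
    (h : IsoData P Q a b) : Idem (rotM c s P Q a b) := by
  have hc' : ∀ x, c * x = x * c := fun x => GDA.even _ _ hc
  have hs' : ∀ x, s * x = x * s := fun x => GDA.even _ _ hs
  have e1 : GDA.sg (c * c) = c * c := by rw [map_mul, hc]
  have e2 : GDA.sg (c * s) = c * s := by rw [map_mul, hc, hs]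
  have e3 : GDA.sg (s * s) = s * s := by rw [map_mul, hs]
  have z1 : ∀ x, c * c * x = x * (c * c) := fun x => GDA.even _ _ e1
  have z2 : ∀ x, c * s * x = x * (c * s) := fun x => GDA.even _ _ e2
  have z3 : ∀ x, s * s * x = x * (s * s) := fun x => GDA.even _ _ e3
  refine ⟨Ev.fromBlocks (h.evP.smul e1) (h.evb.smul e2) (h.eva.smul e2) (h.evQ.smul e3), ?_⟩
  have k1 : c * c * (c * c) + c * s * (c * s) = c * c := by
    calc c * c * (c * c) + c * s * (c * s) = c * c * (c * c + s * s) := by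
          rw [mul_add]; congr 1
          rw [mul_assoc, ← mul_assoc s, hs' c, mul_assoc, ← mul_assoc, mul_assoc c c]
      _ = c * c := by rw [h1, mul_one]
  have k2 : c * c * (c * s) + c * s * (s * s) = c * s := by
    calc c * c * (c * s) + c * s * (s * s) = c * s * (c * c + s * s) := by
          rw [mul_add, z1 (c * s)]
      _ = c * s := by rw [h1, mul_one]
  have k3 : c * s * (c * s) + s * s * (s * s) = s * s := by
    calc c * s * (c * s) + s * s * (s * s) = s * s * (c * c + s * s) := by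
          rw [mul_add]; congr 1
          rw [mul_assoc, ← mul_assoc s, hs' c, mul_assoc, ← mul_assoc c, z1]
      _ = s * s := by rw [h1, mul_one]
  rw [rotM, fromBlocks_multiply, smul_mul_smul_of z1, smul_mul_smul_of z2, smul_mul_smul_of z2,
    smul_mul_smul_of z3, smul_mul_smul_of z1, smul_mul_smul_of z2, smul_mul_smul_of z2,
    smul_mul_smul_of z3, h.idemP.idem, h.idemQ.idem, h.ab, h.ba, h.aP, h.Qa, h.bQ, h.Pb,
    ← add_smul, ← add_smul, ← add_smul, ← add_smul, k1, k2, k3]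
  have k4 : c * s * (c * c) + s * s * (c * s) = c * s := by
    rw [z3 (c * s), ← z1 (c * s)]; exact k2
  rw [k4]

/-- an isomorphism given by `a b = Q`, `b a = P` only -/
theorem IsoData.of {P : Matrix n n A} {Q : Matrix m m A} {a : Matrix m n A} {b : Matrix n m A}
    (hP : Idem P) (hQ : Idem Q) (ha : Ev a) (hb : Ev b) (hab : a * b = Q) (hba : b * a = P) :
    IsoData P Q (Q * a) (P * b) := by
  have h1 : a * P = Q * a := by rw [← hba, ← Matrix.mul_assoc, hab]
  have h2 : b * Q = P * b := by rw [← hab, ← Matrix.mul_assoc, hba]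
  refine ⟨hP.ev, hQ.ev, hQ.ev.mul ha, hP.ev.mul hb, ?_, ?_, ?_, ?_, ?_, ?_⟩
  · rw [Matrix.mul_assoc, ← Matrix.mul_assoc a, h1, Matrix.mul_assoc, hab, hQ.idem, hQ.idem]
  · rw [Matrix.mul_assoc, ← Matrix.mul_assoc b, h2, Matrix.mul_assoc, hba, hP.idem, hP.idem]
  · rw [Matrix.mul_assoc, h1, ← Matrix.mul_assoc, hQ.idem]
  · rw [← Matrix.mul_assoc, hQ.idem]
  · rw [Matrix.mul_assoc, h2, ← Matrix.mul_assoc, hP.idem]
  · rw [← Matrix.mul_assoc, hP.idem]

/-- two idempotents with the same image -/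
theorem IsoData.of_image {P Q : Matrix n n A} (hP : Idem P) (hQ : Idem Q) (h1 : P * Q = Q)
    (h2 : Q * P = P) : IsoData P Q P Q :=
  ⟨hP.ev, hQ.ev, hP.ev, hQ.ev, h1, h2, hP.idem, h2, hQ.idem, h1⟩

/-- an orthogonal sum is isomorphic to the block sum -/
theorem IsoData.of_add {P Q : Matrix n n A} (hP : Idem P) (hQ : Idem Q) (h1 : P * Q = 0)
    (h2 : Q * P = 0) : IsoData (P + Q) (fromBlocks P 0 0 Q) (fromRows P Q) (fromCols P Q) := by
  have e1 : Ev (fromRows P Q) := by
    unfold Ev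
    ext i j
    rcases i with i | i
    · exact hP.ev.apply i j
    · exact hQ.ev.apply i j
  have e2 : Ev (fromCols P Q) := by
    unfold Ev
    ext i j
    rcases j with j | j
    · exact hP.ev.apply i j
    · exact hQ.ev.apply i j
  refine ⟨hP.ev.add hQ.ev, Ev.fromBlocks hP.ev Ev.zero Ev.zero hQ.ev, e1, e2, ?_, ?_, ?_, ?_, ?_,
    ?_⟩
  · rw [fromRows_mul_fromCols, hP.idem, hQ.idem, h1, h2]
  · rw [fromCols_mul_fromRows, hP.idem, hQ.idem]
  · rw [fromRows_mul, Matrix.mul_add, Matrix.mul_add, hP.idem, hQ.idem, h1, h2, add_zero, zero_add]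
  · rw [fromBlocks_mul_fromRows, hP.idem, hQ.idem, Matrix.zero_mul, Matrix.zero_mul, add_zero,
      zero_add]
  · rw [fromCols_mul_fromBlocks, hP.idem, hQ.idem, Matrix.mul_zero, Matrix.mul_zero, add_zero,
      zero_add]
  · rw [mul_fromCols, Matrix.add_mul, Matrix.add_mul, hP.idem, hQ.idem, h1, h2, add_zero, zero_add]

end Abs

/-! ### forms -/

section Forms

variable {X Y : Type*} {D : Dif X} {D' : Dif Y}

noncomputable instance : GDA (Form D) where
  d := (Form.dL (D := D)).toAddMonoidHom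
  sg :=
    { toFun := Form.sg
      map_zero' := Form.sg_zero
      map_one' := Form.sg_one
      map_add' := Form.sg_add
      map_mul' := Form.sg_mul }
  sg_sg := Form.sg_sg
  d_mul := Form.d_mul
  d_sg := Form.d_sg
  d_d := Form.d_d
  even _ b h := Form.mul_comm_of_even h b
  odd _ b h := Form.mul_of_odd h b

theorem gd_eq (a : Form D) : GDA.d a = a.d := rfl
theorem gsg_eq (a : Form D) : GDA.sg a = a.sg := rfl

/-- complex valued forms -/
abbrev CF (D : Dif X) : Type _ := Cx (Form D)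

/-- pullback of complex forms -/
noncomputable def pullC (f : X → Y) (hf : D.Map D' f) : CF D' →+* CF D :=
  Cx.mapR (Form.pullA f hf).toRingHom

@[simp] theorem pullC_re (f : X → Y) (hf : D.Map D' f) (w : CF D') :
    (pullC f hf w).re = Form.pull f hf w.re := rfl
@[simp] theorem pullC_im (f : X → Y) (hf : D.Map D' f) (w : CF D') :
    (pullC f hf w).im = Form.pull f hf w.im := rfl

theorem pullC_d (f : X → Y) (hf : D.Map D' f) (w : CF D') :
    pullC f hf (GDA.d w) = GDA.d (pullC f hf w) := by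
  ext1
  · exact Form.pull_d f hf w.re
  · exact Form.pull_d f hf w.im

theorem pullC_sg (f : X → Y) (hf : D.Map D' f) (w : CF D') :
    pullC f hf (GDA.sg w) = GDA.sg (pullC f hf w) := by
  ext1
  · exact Form.pull_sg f hf w.re
  · exact Form.pull_sg f hf w.im

/-- `pr` for complex forms -/
noncomputable def prC : CF D →+* CF (D.prod (Dif.lin ℝ)) :=
  pullC (Prod.fst : X × ℝ → X) (Dif.map_fst (D := D) (D' := Dif.lin ℝ))

/-- restriction to a time for complex forms -/
noncomputable def atC (t : ℝ) : CF (D.prod (Dif.lin ℝ)) →+* CF D :=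
  pullC (fun x => (x, t)) (Form.map_slice t)

/-- the homotopy operator for complex forms -/
noncomputable def KC : CF (D.prod (Dif.lin ℝ)) → CF D := Cx.mapf Form.K

theorem atC_prC (t : ℝ) (w : CF D) : atC t (prC w) = w := by
  ext1
  · exact H584.at_pr t w.re
  · exact H584.at_pr t w.im

theorem homotopyC (w : CF (D.prod (Dif.lin ℝ))) :
    atC 1 w - atC 0 w = KC (GDA.d w) + GDA.d (KC w) := by
  ext1
  · exact H584.homotopy' w.re
  · exact H584.homotopy' w.im

theorem KC_zero : KC (0 : CF (D.prod (Dif.lin ℝ))) = 0 := by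
  ext1
  · exact H584.K_zero
  · exact H584.K_zero

theorem homotopyC_closed {w : CF (D.prod (Dif.lin ℝ))} (hw : GDA.d w = 0) :
    atC 1 w - atC 0 w = GDA.d (KC w) := by
  rw [homotopyC, hw, KC_zero, zero_add]

theorem KC_nat {f : X → Y} (hf : D.Map D' f) (w : CF (D'.prod (Dif.lin ℝ))) :
    KC (pullC (fun p : X × ℝ => (f p.1, p.2)) (H584.map_cyl hf) w) = pullC f hf (KC w) := by
  ext1
  · exact H584.K_nat hf w.re
  · exact H584.K_nat hf w.im

variable {n m : Type*} [Fintype n] [DecidableEq n] [Fintype m] [DecidableEq m]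

/-- homotopy invariance -/
theorem ch_homotopy {P : Matrix n n (CF (D.prod (Dif.lin ℝ)))} (hP : Idem P) (k : ℕ) :
    ch k (P.map (atC 1)) - ch k (P.map (atC 0)) = GDA.d (KC (ch k P)) := by
  have h1 : ∀ t : ℝ, ch k (P.map (atC t)) = atC t (ch k P) := fun t =>
    (map_ch (atC t) (pullC_d _ _) k P).symm
  rw [h1, h1]
  exact homotopyC_closed (hP.d_ch k)

theorem map_tf {g : ℝ → ℝ} (hg : ContDiff ℝ ∞ g) :
    (D.prod (Dif.lin ℝ)).Map (Dif.lin ℝ) (fun p : X × ℝ => g p.2) :=
  fun h => Sm.comp (f := g) (Sm.of_contDiff hg _) h.2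

/-- a function of time as a form -/
noncomputable def tfr (g : ℝ → ℝ) (hg : ContDiff ℝ ∞ g) : Form (D.prod (Dif.lin ℝ)) :=
  Form.fn (fun p : X × ℝ => g p.2) (map_tf hg)

theorem tfr_val {E : Type} [NormedAddCommGroup E] [NormedSpace ℝ E] [FiniteDimensional ℝ E]
    (g : ℝ → ℝ) (hg : ContDiff ℝ ∞ g) {u : E → X × ℝ} {x : E} (h : (D.prod (Dif.lin ℝ)).At u x) :
    (tfr g hg : Form (D.prod (Dif.lin ℝ))).val u x = algebraMap ℝ (Lam E) (g (u x).2) :=
  Form.fn_val _ _ h

/-- a function of time as a complex form -/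
noncomputable def tf (g : ℝ → ℝ) (hg : ContDiff ℝ ∞ g) : CF (D.prod (Dif.lin ℝ)) :=
  Cx.of (tfr g hg)

theorem sg_tf (g : ℝ → ℝ) (hg : ContDiff ℝ ∞ g) : GDA.sg (tf (D := D) g hg) = tf g hg := by
  rw [tf, Cx.sg_of]
  exact congrArg Cx.of (Form.sg_fn _ (map_tf hg))

theorem algebraMap_val {E : Type} [NormedAddCommGroup E] [NormedSpace ℝ E] [FiniteDimensional ℝ E]
    (r : ℝ) {u : E → X} {x : E} (h : D.At u x) :
    (algebraMap ℝ (Form D) r).val u x = algebraMap ℝ (Lam E) r := by
  rw [Algebra.algebraMap_eq_smul_one, Form.smul_val, Form.one_val h,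
    Algebra.algebraMap_eq_smul_one]

theorem at_tfr (g : ℝ → ℝ) (hg : ContDiff ℝ ∞ g) (t : ℝ) :
    at_ t (tfr g hg : Form (D.prod (Dif.lin ℝ))) = algebraMap ℝ (Form D) (g t) :=
  Form.ext_val fun E _ _ _ u x h => by
    rw [at_, Form.pull_val _ _ h, tfr_val _ _ (Form.map_slice t h), algebraMap_val _ h]
    rfl

theorem atC_tf (g : ℝ → ℝ) (hg : ContDiff ℝ ∞ g) (t : ℝ) :
    atC t (tf (D := D) g hg) = Cx.of (algebraMap ℝ (Form D) (g t)) := by
  ext1
  · exact at_tfr g hg t
  · exact map_zero (Form.pullA (fun x : X => (x, t)) (Form.map_slice t))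

theorem pull_tfr {f : X → Y} (hf : D.Map D' f) (g : ℝ → ℝ) (hg : ContDiff ℝ ∞ g) :
    Form.pull (fun p : X × ℝ => (f p.1, p.2)) (H584.map_cyl hf)
      (tfr g hg : Form (D'.prod (Dif.lin ℝ))) = tfr g hg :=
  Form.ext_val fun E _ _ _ u x h => by
    rw [Form.pull_val _ _ h, tfr_val _ _ (H584.map_cyl hf h), tfr_val _ _ h]
    rfl

theorem pullC_tf {f : X → Y} (hf : D.Map D' f) (g : ℝ → ℝ) (hg : ContDiff ℝ ∞ g) :
    pullC (fun p : X × ℝ => (f p.1, p.2)) (H584.map_cyl hf) (tf (D := D') g hg) =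
      tf (D := D) g hg := by
  ext1
  · exact pull_tfr hf g hg
  · exact map_zero (Form.pullA _ (H584.map_cyl hf))

theorem tfr_mul_add {g g' : ℝ → ℝ} (hg : ContDiff ℝ ∞ g) (hg' : ContDiff ℝ ∞ g')
    (h : ∀ t, g t * g t + g' t * g' t = 1) :
    (tfr g hg * tfr g hg + tfr g' hg' * tfr g' hg' : Form (D.prod (Dif.lin ℝ))) = 1 :=
  Form.ext_val fun E _ _ _ u x hx => by
    rw [Form.add_val, Form.mul_val, Form.mul_val, tfr_val _ _ hx, tfr_val _ _ hx, Form.one_val hx,
      ← map_mul, ← map_mul, ← map_add, h, map_one]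

theorem tf_mul_add {g g' : ℝ → ℝ} (hg : ContDiff ℝ ∞ g) (hg' : ContDiff ℝ ∞ g')
    (h : ∀ t, g t * g t + g' t * g' t = 1) :
    tf (D := D) g hg * tf g hg + tf g' hg' * tf g' hg' = 1 := by
  rw [tf, tf, ← map_mul, ← map_mul, ← map_add, tfr_mul_add hg hg' h, map_one]

/-- `cos (π t / 2)` -/
noncomputable def cosF : CF (D.prod (Dif.lin ℝ)) :=
  tf (fun t => Real.cos (Real.pi / 2 * t)) (Real.contDiff_cos.comp (contDiff_const.mul contDiff_id))

/-- `sin (π t / 2)` -/
noncomputable def sinF : CF (D.prod (Dif.lin ℝ)) :=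
  tf (fun t => Real.sin (Real.pi / 2 * t)) (Real.contDiff_sin.comp (contDiff_const.mul contDiff_id))

theorem sg_cosF : GDA.sg (cosF (D := D)) = cosF := sg_tf _ _
theorem sg_sinF : GDA.sg (sinF (D := D)) = sinF := sg_tf _ _

theorem cosF_sinF : cosF (D := D) * cosF + sinF * sinF = 1 :=
  tf_mul_add _ _ fun t => by
    rw [← sq, ← sq, Real.cos_sq_add_sin_sq]

theorem atC_cosF_zero : atC 0 (cosF (D := D)) = 1 := by
  rw [cosF, atC_tf, mul_zero, Real.cos_zero, map_one, map_one]

theorem atC_sinF_zero : atC 0 (sinF (D := D)) = 0 := by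
  rw [sinF, atC_tf, mul_zero, Real.sin_zero, map_zero, map_zero]

theorem atC_cosF_one : atC 1 (cosF (D := D)) = 0 := by
  rw [cosF, atC_tf, mul_one, Real.cos_pi_div_two, map_zero, map_zero]

theorem atC_sinF_one : atC 1 (sinF (D := D)) = 1 := by
  rw [sinF, atC_tf, mul_one, Real.sin_pi_div_two, map_one, map_one]

/-- the transgression form of an isomorphism -/
noncomputable def Tiso (k : ℕ) (P : Matrix n n (CF D)) (Q : Matrix m m (CF D))
    (a : Matrix m n (CF D)) (b : Matrix n m (CF D)) : CF D :=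
  KC (ch k (rotM cosF sinF (P.map prC) (Q.map prC) (a.map prC) (b.map prC)))

theorem map_fromBlocks' {A B : Type*} (f : A → B) (M : Matrix n n A) (N : Matrix n m A)
    (M' : Matrix m n A) (N' : Matrix m m A) :
    (fromBlocks M N M' N').map f = fromBlocks (M.map f) (N.map f) (M'.map f) (N'.map f) :=
  fromBlocks_map _ _ _ _ _

theorem map_smul' {A B : Type*} [Ring A] [Ring B] (f : A →+* B) (c : A) (M : Matrix n m A) :
    (c • M).map f = f c • M.map f := by
  ext i j
  simp

theorem map_rotM {A B : Type*} [Ring A] [Ring B] (f : A →+* B) (c s : A) (P : Matrix n n A)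
    (Q : Matrix m m A) (a : Matrix m n A) (b : Matrix n m A) :
    (rotM c s P Q a b).map f = rotM (f c) (f s) (P.map f) (Q.map f) (a.map f) (b.map f) := by
  rw [rotM, map_fromBlocks', map_smul', map_smul', map_smul', map_smul', map_mul, map_mul, map_mul,
    rotM]

theorem map_atC_prC (t : ℝ) (M : Matrix n m (CF D)) : (M.map prC).map (atC t) = M := by
  ext1 i j
  exact atC_prC t _

theorem IsoData.map {A B : Type*} [Ring A] [GDA A] [Ring B] [GDA B] (f : A →+* B)
    (hs : ∀ a, f (GDA.sg a) = GDA.sg (f a)) {P : Matrix n n A} {Q : Matrix m m A}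
    {a : Matrix m n A} {b : Matrix n m A} (h : IsoData P Q a b) :
    IsoData (P.map f) (Q.map f) (a.map f) (b.map f) := by
  refine ⟨?_, ?_, ?_, ?_, ?_, ?_, ?_, ?_, ?_, ?_⟩
  · unfold Ev; ext i j; rw [sM_apply, Matrix.map_apply, ← hs, h.evP.apply]
  · unfold Ev; ext i j; rw [sM_apply, Matrix.map_apply, ← hs, h.evQ.apply]
  · unfold Ev; ext i j; rw [sM_apply, Matrix.map_apply, ← hs, h.eva.apply]
  · unfold Ev; ext i j; rw [sM_apply, Matrix.map_apply, ← hs, h.evb.apply]
  · rw [← Matrix.map_mul, h.ab]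
  · rw [← Matrix.map_mul, h.ba]
  · rw [← Matrix.map_mul, h.aP]
  · rw [← Matrix.map_mul, h.Qa]
  · rw [← Matrix.map_mul, h.bQ]
  · rw [← Matrix.map_mul, h.Pb]

/-- isomorphic idempotents have cohomologous Chern character forms -/
theorem ch_iso {P : Matrix n n (CF D)} {Q : Matrix m m (CF D)} {a : Matrix m n (CF D)}
    {b : Matrix n m (CF D)} (h : IsoData P Q a b) (k : ℕ) :
    ch k Q - ch k P = GDA.d (Tiso k P Q a b) := by
  have h1 : IsoData (P.map prC) (Q.map prC) (a.map prC) (b.map prC) := h.map prC (pullC_sg _ Dif.map_fst)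
  have h2 := ch_homotopy (idem_rotM sg_cosF sg_sinF cosF_sinF h1) k
  rw [map_rotM, map_rotM, atC_cosF_zero, atC_sinF_zero, atC_cosF_one, atC_sinF_one, map_atC_prC,
    map_atC_prC, map_atC_prC, map_atC_prC, map_atC_prC, map_atC_prC, map_atC_prC, map_atC_prC]
    at h2
  rw [Tiso, ← h2, rotM, rotM]
  simp only [mul_zero, mul_one, zero_smul, one_smul]
  rw [ch_fromBlocks, ch_fromBlocks, ch_zero, ch_zero, zero_add, add_zero]

/-- naturality of the transgression form -/
theorem pullC_Tiso {f : X → Y} (hf : D.Map D' f) (k : ℕ) (P : Matrix n n (CF D'))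
    (Q : Matrix m m (CF D')) (a : Matrix m n (CF D')) (b : Matrix n m (CF D')) :
    pullC f hf (Tiso k P Q a b) = Tiso k (P.map (pullC f hf)) (Q.map (pullC f hf))
      (a.map (pullC f hf)) (b.map (pullC f hf)) := by
  have h1 : ∀ w : CF D', pullC (fun p : X × ℝ => (f p.1, p.2)) (H584.map_cyl hf) (prC w) =
      prC (pullC f hf w) := by
    intro w
    ext1
    · exact (H584.pull_pull (H584.map_cyl hf) Dif.map_fst (fun h => hf h.1) (fun _ => rfl) w.re).trans
        (H584.pull_pull Dif.map_fst hf (fun h => hf h.1) (fun _ => rfl) w.re).symm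
    · exact (H584.pull_pull (H584.map_cyl hf) Dif.map_fst (fun h => hf h.1) (fun _ => rfl) w.im).trans
        (H584.pull_pull Dif.map_fst hf (fun h => hf h.1) (fun _ => rfl) w.im).symm
  rw [Tiso, ← KC_nat, map_ch _ (pullC_d _ _), map_rotM, Tiso, cosF, sinF, pullC_tf hf,
    pullC_tf hf, cosF, sinF]
  have h2 : (P.map prC).map (pullC (fun p : X × ℝ => (f p.1, p.2)) (H584.map_cyl hf)) =
      (P.map (pullC f hf)).map prC := by
    ext1 i j
    exact h1 _
  have h3 : (Q.map prC).map (pullC (fun p : X × ℝ => (f p.1, p.2)) (H584.map_cyl hf)) =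
      (Q.map (pullC f hf)).map prC := by
    ext1 i j
    exact h1 _
  have h4 : (a.map prC).map (pullC (fun p : X × ℝ => (f p.1, p.2)) (H584.map_cyl hf)) =
      (a.map (pullC f hf)).map prC := by
    ext1 i j
    exact h1 _
  have h5 : (b.map prC).map (pullC (fun p : X × ℝ => (f p.1, p.2)) (H584.map_cyl hf)) =
      (b.map (pullC f hf)).map prC := by
    ext1 i j
    exact h1 _
  rw [h2, h3, h4, h5]

/-! ### basic forms -/

variable {Φ : X × ℝ → X} {hΦ : (D.prod (Dif.lin ℝ)).Map D Φ}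

/-- basic complex forms -/
def BasicC (Φ : X × ℝ → X) (hΦ : (D.prod (Dif.lin ℝ)).Map D Φ) (w : CF D) : Prop :=
  pullC Φ hΦ w = prC w

theorem BasicC.re {w : CF D} (h : BasicC Φ hΦ w) : Basic Φ hΦ w.re := congrArg Cx.re h

theorem BasicC.im {w : CF D} (h : BasicC Φ hΦ w) : Basic Φ hΦ w.im := congrArg Cx.im h

theorem BasicC.mk' {w : CF D} (h1 : Basic Φ hΦ w.re) (h2 : Basic Φ hΦ w.im) : BasicC Φ hΦ w := by
  unfold BasicC
  ext1
  · exact h1
  · exact h2

/-- matrices with basic entries -/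
def BasicM (Φ : X × ℝ → X) (hΦ : (D.prod (Dif.lin ℝ)).Map D Φ) (P : Matrix n m (CF D)) : Prop :=
  P.map (pullC Φ hΦ) = P.map prC

theorem BasicM.ch {P : Matrix n n (CF D)} (h : BasicM Φ hΦ P) (k : ℕ) :
    BasicC Φ hΦ (ch k P) := by
  unfold BasicC
  rw [map_ch _ (pullC_d _ hΦ), h, prC, map_ch _ (pullC_d _ Dif.map_fst)]

theorem BasicM.Tiso {P : Matrix n n (CF D)} {Q : Matrix m m (CF D)} {a : Matrix m n (CF D)}
    {b : Matrix n m (CF D)} (hP : BasicM Φ hΦ P) (hQ : BasicM Φ hΦ Q) (ha : BasicM Φ hΦ a)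
    (hb : BasicM Φ hΦ b) (k : ℕ) : BasicC Φ hΦ (Tiso k P Q a b) := by
  unfold BasicC
  rw [pullC_Tiso hΦ, hP, hQ, ha, hb, prC, pullC_Tiso Dif.map_fst]

end Forms

end Vale.Agent.P231.ChW
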