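import Vale.Agent.P231.ChW.Newton
import Vale.Agent.P231.ChW.Iso

/-!
# P231, stage 2, block X2 (part 3): Newton's recursion for the Chern character forms of an
idempotent matrix of complex functions of rank at most `r` stops at `r`, on the nose.
-/

set_option linter.unusedSectionVars false
set_option linter.unusedVariables false

open Matrix Finset

namespace Vale.Agent.P231.ChW

open Fm

/-! ### generalities on Newton's recursion -/

section Gen

variable {K : Type*} [Field K] [CharZero K] {R R' : Type*} [Ring R] [Algebra K R] [Ring R']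
  [Algebra K R']

theorem NewtonRec.map {s e : ℕ → R} (h : NewtonRec K s e) (φ : R →ₐ[K] R') :
    NewtonRec K (fun i => φ (s i)) (fun i => φ (e i)) := by
  refine ⟨by simp only [h.1, map_one], fun j => ?_⟩
  simp only
  rw [← map_smul, h.2 j, map_sum]
  refine Finset.sum_congr rfl fun i _ => ?_
  rw [map_smul, map_mul]

theorem NewtonRec.congr {s s' e : ℕ → R} (h : NewtonRec K s e) (hs : ∀ i, s (i + 1) = s' (i + 1)) :
    NewtonRec K s' e := by
  refine ⟨h.1, fun j => ?_⟩
  rw [h.2 j]
  exact Finset.sum_congr rfl fun i _ => by rw [hs]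

/-- the solution of Newton's recursion -/
noncomputable def newtE (K : Type*) {R : Type*} [Field K] [Ring R] [Algebra K R] (s : ℕ → R) :
    ℕ → R
  | 0 => 1
  | (j + 1) => ((j : K) + 1)⁻¹ • ∑ i : Fin (j + 1), (-1 : K) ^ (i : ℕ) • (s (i + 1) *
      newtE K s (j - i))
  decreasing_by exact Nat.lt_succ_of_le (Nat.sub_le _ _)

theorem newtE_spec (s : ℕ → R) : NewtonRec K s (newtE K s) := by
  refine ⟨by rw [newtE], fun j => ?_⟩
  have hj : ((j : K) + 1) ≠ 0 := Nat.cast_add_one_ne_zero j
  rw [newtE, smul_smul, mul_inv_cancel₀ hj, one_smul, ← Fin.sum_univ_eq_sum_range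
    (fun i => (-1 : K) ^ i • (s (i + 1) * newtE K s (j - i))) (j + 1)]

theorem NewtonRec.scale {s e : ℕ → R} (h : NewtonRec K s e) (a : K) :
    NewtonRec K (fun i => a ^ i • s i) (fun i => a ^ i • e i) := by
  refine ⟨by simp only [pow_zero, one_smul, h.1], fun j => ?_⟩
  simp only
  rw [smul_comm, h.2 j, Finset.smul_sum]
  refine Finset.sum_congr rfl fun i hi => ?_
  have hi' : i ≤ j := Nat.lt_succ_iff.1 (Finset.mem_range.1 hi)
  rw [smul_comm, smul_mul_smul_comm, ← pow_add]
  congr 3
  omega

end Gen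

/-! ### values at the points of the plots -/

section Val

variable {X : Type*} {D : Dif X}
variable {E : Type} [NormedAddCommGroup E] [NormedSpace ℝ E] [FiniteDimensional ℝ E]

theorem central_of_even {z : Cx (Lam E)} (h1 : inv z.re = z.re) (h2 : inv z.im = z.im) :
    z ∈ Subalgebra.center ℂ (Cx (Lam E)) := by
  rw [Subalgebra.mem_center_iff]
  intro w
  ext
  · rw [Cx.mul_re, Cx.mul_re, mul_comm_of_even h1, mul_comm_of_even h2]
  · rw [Cx.mul_im, Cx.mul_im, mul_comm_of_even h1, mul_comm_of_even h2, add_comm]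

/-- value of a complex form at a point of a plot -/
noncomputable def valC (u : E → X) (x : E) (h : D.At u x) : CF D →+* Cx (Lam E) where
  toFun := Cx.mapf fun w => w.val u x
  map_zero' := rfl
  map_one' := by
    ext
    · exact Form.one_val h
    · rfl
  map_add' z w := rfl
  map_mul' z w := rfl

theorem valC_re (u : E → X) (x : E) (h : D.At u x) (w : CF D) :
    (valC u x h w).re = w.re.val u x := rfl

theorem valC_im (u : E → X) (x : E) (h : D.At u x) (w : CF D) :
    (valC u x h w).im = w.im.val u x := rfl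

theorem valC_smul (u : E → X) (x : E) (h : D.At u x) (c : ℂ) (w : CF D) :
    valC u x h (c • w) = c • valC u x h w := by
  ext
  · rw [valC_re, Cx.smul_re, Cx.smul_re]
    rfl
  · rw [valC_im, Cx.smul_im, Cx.smul_im]
    rfl

/-- value at a point, as an algebra homomorphism -/
noncomputable def valA (u : E → X) (x : E) (h : D.At u x) : CF D →ₐ[ℂ] Cx (Lam E) where
  __ := valC u x h
  commutes' c := by
    have h1 : algebraMap ℂ (CF D) c = c • (1 : CF D) := Algebra.algebraMap_eq_smul_one c
    change valC u x h (algebraMap ℂ (CF D) c) = _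
    rw [h1, valC_smul, map_one, Algebra.algebraMap_eq_smul_one]

theorem ext_valC {z w : CF D} (h : ∀ (E : Type) [NormedAddCommGroup E] [NormedSpace ℝ E]
    [FiniteDimensional ℝ E] (u : E → X) (x : E) (hu : D.At u x), valC u x hu z = valC u x hu w) :
    z = w := by
  ext1
  · exact Form.ext_val fun E _ _ _ u x hu => congrArg Cx.re (h E u x hu)
  · exact Form.ext_val fun E _ _ _ u x hu => congrArg Cx.im (h E u x hu)

/-- `P` is the matrix of functions `p`, with values idempotent matrices of rank at most `r` -/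
structure RankLE (r : ℕ) {n : Type*} [Fintype n] [DecidableEq n] (P : Matrix n n (CF D))
    (p : X → Matrix n n ℂ) : Prop where
  idem : ∀ z, p z * p z = p z
  rank : ∀ z, (p z).rank ≤ r
  re : ∀ {E : Type} [NormedAddCommGroup E] [NormedSpace ℝ E] [FiniteDimensional ℝ E]
    {u : E → X} {x : E}, D.At u x → ∀ i j, (P i j).re.val u x =
      algebraMap ℝ (Lam E) (p (u x) i j).re
  im : ∀ {E : Type} [NormedAddCommGroup E] [NormedSpace ℝ E] [FiniteDimensional ℝ E]
    {u : E → X} {x : E}, D.At u x → ∀ i j, (P i j).im.val u x =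
      algebraMap ℝ (Lam E) (p (u x) i j).im

variable {n : Type*} [Fintype n] [DecidableEq n] {r : ℕ} {P : Matrix n n (CF D)}
  {p : X → Matrix n n ℂ}

theorem RankLE.valC (h : RankLE r P p) (u : E → X) (x : E) (hu : D.At u x) :
    P.map (valC u x hu) = (p (u x)).map (algebraMap ℂ (Cx (Lam E))) := by
  ext i j
  · rw [Matrix.map_apply, valC_re, h.re hu, Matrix.map_apply, Algebra.algebraMap_eq_smul_one,
      Algebra.algebraMap_eq_smul_one, Cx.smul_re]
    simp
  · rw [Matrix.map_apply, valC_im, h.im hu, Matrix.map_apply, Algebra.algebraMap_eq_smul_one,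
      Algebra.algebraMap_eq_smul_one, Cx.smul_im]
    simp

theorem RankLE.Idem (h : RankLE r P p) : ChW.Idem P where
  ev := by
    unfold Ev
    refine Matrix.ext fun i j => ?_
    refine ext_valC fun E _ _ _ u x hu => ?_
    ext
    · change ((P i j).re.sg).val u x = (P i j).re.val u x
      rw [Form.sg_val, h.re hu, AlgHom.commutes]
    · change ((P i j).im.sg).val u x = (P i j).im.val u x
      rw [Form.sg_val, h.im hu, AlgHom.commutes]
  idem := by
    refine Matrix.ext fun i j => ?_
    refine ext_valC fun E _ _ _ u x hu => ?_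
    have h1 : (P * P).map (ChW.valC u x hu) = P.map (ChW.valC u x hu) := by
      rw [Matrix.map_mul, h.valC, ← Matrix.map_mul, h.idem]
    exact congrFun (congrFun h1 i) j

/-- **X2, part 3**: the elements given by Newton's recursion from the Chern character forms of an
idempotent matrix of rank at most `r` vanish above `r`. -/
theorem RankLE.newton (h : RankLE r P p) {e : ℕ → CF D}
    (he : NewtonRec ℂ (fun k => ch k P) e) {j : ℕ} (hj : r < j) : e j = 0 := by
  have hI := h.Idem
  refine ext_valC fun E _ _ _ u x hu => ?_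
  rw [map_zero]
  set φ : CF D →ₐ[ℂ] Cx (Lam E) := valA u x hu with hφ
  have hφ' : ∀ w, φ w = ChW.valC u x hu w := fun _ => rfl
  have h1 := (he.map φ)
  set M : Matrix n n (Cx (Lam E)) := (om P).map (ChW.valC u x hu) with hM
  have hch : ∀ i, φ (ch (i + 1) P) = trace (M ^ (i + 1)) := by
    intro i
    rw [hφ', hI.ch_succ, hM, AddMonoidHom.map_trace (ChW.valC u x hu) (om P ^ (i + 1))]
    congr 1
    exact map_pow (ChW.valC u x hu).mapMatrix (om P) (i + 1)
  have h2 : NewtonRec ℂ (fun i => trace (M ^ i)) (fun i => φ (e i)) := h1.congr hch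
  have hPM : (p (u x)).map (algebraMap ℂ (Cx (Lam E))) * M = M := by
    rw [← h.valC u x hu, hM, ← Matrix.map_mul, hI.mul_om]
  have hMP : M * (p (u x)).map (algebraMap ℂ (Cx (Lam E))) = M := by
    rw [← h.valC u x hu, hM, ← Matrix.map_mul, hI.om_mul]
  have hcen : ∀ i j, M i j ∈ Subalgebra.center ℂ (Cx (Lam E)) := by
    intro i j
    have h3 := hI.ev_om.apply i j
    apply central_of_even
    · have h4 := congrArg (fun w : CF D => w.re.val u x) h3
      exact h4
    · have h4 := congrArg (fun w : CF D => w.im.val u x) h3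
      exact h4
  exact newton_rank (h.idem (u x)) hcen hPM hMP h2 ((h.rank (u x)).trans_lt hj)

theorem of_smul (c : ℝ) (w : Form D) : Cx.of (c • w) = (c : ℂ) • (Cx.of w : CF D) := by
  ext1
  · rw [Cx.smul_re, Cx.of_re, Cx.of_re, Cx.of_im, smul_zero, sub_zero, Complex.ofReal_re]
  · rw [Cx.smul_im, Cx.of_im, Cx.of_im, Cx.of_re, smul_zero, zero_add, Complex.ofReal_im, zero_smul]

theorem NewtonRec.of {s e : ℕ → Form D} (h : NewtonRec ℝ s e) :
    NewtonRec ℂ (fun i => (Cx.of (s i) : CF D)) (fun i => Cx.of (e i)) := by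
  refine ⟨by simp only [h.1, map_one], fun j => ?_⟩
  simp only
  have h1 : ((j : ℂ) + 1) = (((j : ℝ) + 1 : ℝ) : ℂ) := by push_cast; rfl
  rw [h1, ← of_smul, h.2 j, map_sum]
  refine Finset.sum_congr rfl fun i _ => ?_
  have h2 : ((-1 : ℂ) ^ i) = (((-1 : ℝ) ^ i : ℝ) : ℂ) := by push_cast; rfl
  rw [h2, of_smul, map_mul]

/-- real version: `σ k` are the normalised real Chern character forms -/
theorem RankLE.newton_real (h : RankLE r P p) (a : ℂ) {σ : ℕ → Form D}
    (hσ : ∀ k, (Cx.of (σ (k + 1)) : CF D) = a ^ (k + 1) • ch (k + 1) P) {e : ℕ → Form D}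
    (he : NewtonRec ℝ σ e) {j : ℕ} (hj : r < j) : e j = 0 := by
  have h1 := he.of.congr (s' := fun i => a ^ i • ch i P) hσ
  have h2 := ((newtE_spec (K := ℂ) (fun k => ch k P)).scale a)
  have h3 := h1.unique h2 j
  rw [h.newton (newtE_spec (K := ℂ) (fun k => ch k P)) hj, smul_zero] at h3
  exact congrArg Cx.re h3

/-- version in a quotient `H` of a subalgebra `Z` of the forms (closed basic even forms modulo
exact ones) -/
theorem RankLE.newton_quot (h : RankLE r P p) (a : ℂ) {Z H : Type*} [Ring Z] [Algebra ℝ Z]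
    [Ring H] [Algebra ℝ H] (ι : Z →ₐ[ℝ] Form D) (hι : Function.Injective ι) (π : Z →ₐ[ℝ] H)
    {σ : ℕ → Z} (hσ : ∀ k, (Cx.of (ι (σ (k + 1))) : CF D) = a ^ (k + 1) • ch (k + 1) P)
    {C : ℕ → H} (hC : NewtonRec ℝ (fun k => π (σ k)) C) {j : ℕ} (hj : r < j) : C j = 0 := by
  have h1 := newtE_spec (K := ℝ) σ
  have h2 := h.newton_real a hσ (h1.map ι) hj
  have h3 : newtE ℝ σ j = 0 := hι (by rw [h2, map_zero])
  rw [hC.unique (h1.map π) j, h3, map_zero]

/-- the rank of an idempotent from its trace -/
theorem rank_eq_of_trace {q : Matrix n n ℂ} (hq : q * q = q) (ht : q.trace = r) : q.rank = r := by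
  obtain ⟨a, b, h1, h2⟩ := exists_factor hq
  have h3 : q.trace = (q.rank : ℂ) := by
    conv_lhs => rw [← h1]
    rw [Matrix.trace_mul_comm, h2, Matrix.trace_one, Fintype.card_fin]
  rw [h3] at ht
  exact_mod_cast ht

end Val

end Vale.Agent.P231.ChW
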