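import Vale.Agent.P231.ChW.Real
import Vale.Agent.P231.ChW.RankCF
import Vale.Agent.P231.S2X.Test
import Vale.Agent.P231.H584.Bas

/-!
# P231, stage 2: from the bundles over `V` to the relations (R1), (R2), in the complexified ring of
closed even basic forms modulo differentials of basic forms
-/

set_option linter.unusedSectionVars false
set_option linter.unusedVariables false

open Matrix Set Filter Topology
open scoped ContDiff

namespace Vale.Agent.P231.ChW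

open Fm W

/-! ### the complexification of a commutative algebra -/

section Comm

variable {A B : Type*} [CommRing A] [CommRing B]

instance : CommRing (Cx A) :=
  { (inferInstance : Ring (Cx A)) with
    mul_comm := fun z w => by
      ext
      · rw [Cx.mul_re, Cx.mul_re]; ring
      · rw [Cx.mul_im, Cx.mul_im]; ring }

variable [Algebra ℝ A]

theorem Cx.real_smul_re (r : ℝ) (z : Cx A) : (r • z).re = r • z.re := by
  change ((r : ℂ) • z).re = _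
  rw [Cx.smul_re, Complex.ofReal_re, Complex.ofReal_im, zero_smul, sub_zero]

theorem Cx.real_smul_im (r : ℝ) (z : Cx A) : (r • z).im = r • z.im := by
  change ((r : ℂ) • z).im = _
  rw [Cx.smul_im, Complex.ofReal_re, Complex.ofReal_im, zero_smul, add_zero]

/-- the real part as a linear map -/
def Cx.reL : Cx A →ₗ[ℝ] A where
  toFun := Cx.re
  map_add' _ _ := rfl
  map_smul' r z := Cx.real_smul_re r z

/-- the inclusion as an algebra homomorphism -/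
def Cx.ofA : A →ₐ[ℝ] Cx A where
  toRingHom := Cx.of
  commutes' r := by
    change Cx.of (algebraMap ℝ A r) = _
    rw [Algebra.algebraMap_eq_smul_one, Algebra.algebraMap_eq_smul_one]
    ext
    · rw [Cx.real_smul_re]; rfl
    · rw [Cx.real_smul_im]
      simp

theorem Cx.ofA_apply (a : A) : Cx.ofA a = Cx.of a := rfl

theorem Cx.reL_of (a : A) : Cx.reL (Cx.of a) = a := rfl

omit [Algebra ℝ A] in
theorem Cx.of_add' (a b : A) : Cx.of (a + b) = Cx.of a + Cx.of b := map_add _ _ _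

omit [Algebra ℝ A] in
theorem Cx.of_mul' (a b : A) : Cx.of (a * b) = Cx.of a * Cx.of b := map_mul _ _ _

omit [Algebra ℝ A] in
theorem Cx.of_pow' (a : A) (k : ℕ) : Cx.of (a ^ k) = Cx.of a ^ k := map_pow _ _ _

theorem Cx.of_smul' (r : ℝ) (a : A) : Cx.of (r • a) = r • Cx.of a := map_smul Cx.ofA r a

omit [Algebra ℝ A] in
theorem Cx.of_sum' {ι : Type*} (s : Finset ι) (f : ι → A) :
    Cx.of (∑ i ∈ s, f i) = ∑ i ∈ s, Cx.of (f i) := map_sum _ _ _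

end Comm

variable {X Y : Type*} {D : Dif X} {D' : Dif Y}
variable {n m l : Type*} [Fintype n] [DecidableEq n] [Fintype m] [DecidableEq m] [Fintype l]
  [DecidableEq l]
variable {Φ : X × ℝ → X} {hΦ : (D.prod (Dif.lin ℝ)).Map D Φ}

/-- closed even basic forms modulo the differentials of basic forms -/
abbrev Hb (Φ : X × ℝ → X) (hΦ : (D.prod (Dif.lin ℝ)).Map D Φ) : Type _ :=
  H584.Bas Φ hΦ ⧸ H584.Exa Φ hΦ

/-- the quotient map -/
noncomputable def qm (Φ : X × ℝ → X) (hΦ : (D.prod (Dif.lin ℝ)).Map D Φ) :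
    H584.Bas Φ hΦ →ₐ[ℝ] Hb Φ hΦ := Ideal.Quotient.mkₐ ℝ _

theorem Coh.qm_eq {a b : H584.Bas Φ hΦ} (h : Coh Φ hΦ (a : Form D) b) :
    qm Φ hΦ a = qm Φ hΦ b := by
  obtain ⟨η, h1, -, h3⟩ := h
  exact H584.eq_quot Φ hΦ h1 (by rw [← h3]; abel)

theorem qm_eq_of {a b : H584.Bas Φ hΦ} {η : Form D} (h : Basic Φ hΦ η)
    (h' : (a : Form D) - b = η.d) : qm Φ hΦ a = qm Φ hΦ b :=
  H584.eq_quot Φ hΦ h (by rw [← h']; abel)

/-- basic idempotents -/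
structure IB (Φ : X × ℝ → X) (hΦ : (D.prod (Dif.lin ℝ)).Map D Φ) (P : Matrix n n (CF D)) :
    Prop where
  idem : Idem P
  bas : BasicM Φ hΦ P

namespace IB

/-- the Chern character form, in the complexified ring of closed even basic forms -/
noncomputable def cl {P : Matrix n n (CF D)} (h : IB Φ hΦ P) (k : ℕ) : Cx (H584.Bas Φ hΦ) :=
  ⟨⟨(sC k P).re, congrArg Cx.re (sC_even h.idem k), congrArg Cx.re (sC_closed h.idem k),
    (h.bas.sC k).re⟩, ⟨(sC k P).im, congrArg Cx.im (sC_even h.idem k),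
    congrArg Cx.im (sC_closed h.idem k), (h.bas.sC k).im⟩⟩

/-- its class -/
noncomputable def qc {P : Matrix n n (CF D)} (h : IB Φ hΦ P) (k : ℕ) : Cx (Hb Φ hΦ) :=
  Cx.mapR (qm Φ hΦ : H584.Bas Φ hΦ →+* Hb Φ hΦ) (h.cl k)

/-- the inclusion of the forms -/
noncomputable def inc (Φ : X × ℝ → X) (hΦ : (D.prod (Dif.lin ℝ)).Map D Φ) :
    Cx (H584.Bas Φ hΦ) →+* CF D :=
  Cx.mapR ((H584.Bas Φ hΦ).val : H584.Bas Φ hΦ →+* Form D)

theorem inc_inj : Function.Injective (inc Φ hΦ) := fun z w h => by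
  ext1
  · exact Subtype.ext (congrArg Cx.re h)
  · exact Subtype.ext (congrArg Cx.im h)

theorem inc_cl {P : Matrix n n (CF D)} (h : IB Φ hΦ P) (k : ℕ) : inc Φ hΦ (h.cl k) = sC k P :=
  rfl

theorem inc_smul (r : ℝ) (z : Cx (H584.Bas Φ hΦ)) : inc Φ hΦ (r • z) = (r : ℂ) • inc Φ hΦ z := by
  ext1
  · change ((r • z).re : Form D) = _
    rw [Cx.real_smul_re, Cx.smul_re, Complex.ofReal_re, Complex.ofReal_im, zero_smul, sub_zero]
    rfl
  · change ((r • z).im : Form D) = _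
    rw [Cx.real_smul_im, Cx.smul_im, Complex.ofReal_re, Complex.ofReal_im, zero_smul, add_zero]
    rfl

theorem mapR_smul (r : ℝ) (z : Cx (H584.Bas Φ hΦ)) :
    Cx.mapR (qm Φ hΦ : H584.Bas Φ hΦ →+* Hb Φ hΦ) (r • z) =
      r • Cx.mapR (qm Φ hΦ : H584.Bas Φ hΦ →+* Hb Φ hΦ) z := by
  ext1
  · change qm Φ hΦ (r • z).re = _
    rw [Cx.real_smul_re, Cx.real_smul_re, map_smul]
    rfl
  · change qm Φ hΦ (r • z).im = _
    rw [Cx.real_smul_im, Cx.real_smul_im, map_smul]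
    rfl

/-- equality of classes from equality modulo differentials -/
theorem qc_eq_of {z w : Cx (H584.Bas Φ hΦ)} {η : CF D} (h : BasicC Φ hΦ η)
    (h' : inc Φ hΦ z - inc Φ hΦ w = GDA.d η) :
    Cx.mapR (qm Φ hΦ : H584.Bas Φ hΦ →+* Hb Φ hΦ) z =
      Cx.mapR (qm Φ hΦ : H584.Bas Φ hΦ →+* Hb Φ hΦ) w := by
  ext1
  · exact qm_eq_of h.re (congrArg Cx.re h')
  · exact qm_eq_of h.im (congrArg Cx.im h')

theorem kr {P : Matrix n n (CF D)} {Q : Matrix m m (CF D)} (hP : IB Φ hΦ P) (hQ : IB Φ hΦ Q) :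
    IB Φ hΦ (kr P Q) := by
  refine ⟨hP.idem.kr hQ.idem, ?_⟩
  unfold BasicM
  ext1 i j
  have h1 := congrFun (congrFun hP.bas i.1) j.1
  have h2 := congrFun (congrFun hQ.bas i.2) j.2
  rw [Matrix.map_apply, Matrix.map_apply] at h1 h2
  rw [Matrix.map_apply, Matrix.map_apply, kr_apply, map_mul, map_mul, h1, h2]

theorem cj {P : Matrix n n (CF D)} (hP : IB Φ hΦ P) : IB Φ hΦ (cj P) :=
  ⟨hP.idem.cj, hP.bas.cj⟩

theorem add {P Q : Matrix n n (CF D)} (hP : IB Φ hΦ P) (hQ : IB Φ hΦ Q) (h1 : P * Q = 0)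
    (h2 : Q * P = 0) : IB Φ hΦ (P + Q) := by
  refine ⟨⟨?_, ?_⟩, hP.bas.add hQ.bas⟩
  · exact hP.idem.ev.add hQ.idem.ev
  · rw [Matrix.add_mul, Matrix.mul_add, Matrix.mul_add, h1, h2, hP.idem.idem, hQ.idem.idem,
      add_zero, zero_add]

theorem fromBlocks {P : Matrix n n (CF D)} {Q : Matrix m m (CF D)} (hP : IB Φ hΦ P)
    (hQ : IB Φ hΦ Q) : IB Φ hΦ (fromBlocks P 0 0 Q) :=
  ⟨⟨Ev.fromBlocks hP.idem.ev Ev.zero Ev.zero hQ.idem.ev, by
    rw [fromBlocks_multiply, hP.idem.idem, hQ.idem.idem, Matrix.mul_zero, Matrix.zero_mul,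
      Matrix.mul_zero, Matrix.zero_mul, Matrix.mul_zero, Matrix.zero_mul, add_zero, add_zero,
      zero_add, zero_add]⟩, hP.bas.fromBlocks hQ.bas⟩

theorem qc_congr {P Q : Matrix n n (CF D)} (hP : IB Φ hΦ P) (hQ : IB Φ hΦ Q) (h : P = Q)
    (k : ℕ) : hP.qc k = hQ.qc k := by
  subst h
  rfl

/-- isomorphic bundles -/
theorem qc_isoData {P : Matrix n n (CF D)} {Q : Matrix m m (CF D)} {a : Matrix m n (CF D)}
    {b : Matrix n m (CF D)} (hP : IB Φ hΦ P) (hQ : IB Φ hΦ Q) (h : IsoData P Q a b)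
    (ba : BasicM Φ hΦ a) (bb : BasicM Φ hΦ b) (k : ℕ) :
    hQ.qc k = hP.qc k := by
  refine qc_eq_of (η := nrm k • Tiso k P Q a b) ((hP.bas.Tiso hQ.bas ba bb k).smul _) ?_
  rw [inc_cl, inc_cl, mapA_smulC, ← ch_iso h, smul_sub]
  rfl

/-- isomorphic bundles -/
theorem qc_iso {P : Matrix n n (CF D)} {Q : Matrix m m (CF D)} {a : Matrix m n (CF D)}
    {b : Matrix n m (CF D)} (hP : IB Φ hΦ P) (hQ : IB Φ hΦ Q) (ha : Ev a) (hb : Ev b)
    (hab : a * b = Q) (hba : b * a = P) (ba : BasicM Φ hΦ a) (bb : BasicM Φ hΦ b) (k : ℕ) :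
    hQ.qc k = hP.qc k :=
  qc_isoData hP hQ (IsoData.of hP.idem hQ.idem ha hb hab hba) (hQ.bas.mul' ba) (hP.bas.mul' bb) k

theorem qc_image {P Q : Matrix n n (CF D)} (hP : IB Φ hΦ P) (hQ : IB Φ hΦ Q) (h1 : P * Q = Q)
    (h2 : Q * P = P) (k : ℕ) : hQ.qc k = hP.qc k :=
  qc_isoData hP hQ (IsoData.of_image hP.idem hQ.idem h1 h2) hP.bas hQ.bas k

theorem qc_fromBlocks {P : Matrix n n (CF D)} {Q : Matrix m m (CF D)} (hP : IB Φ hΦ P)
    (hQ : IB Φ hΦ Q) (k : ℕ) : (hP.fromBlocks hQ).qc k = hP.qc k + hQ.qc k := by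
  unfold qc
  rw [← map_add]
  congr 1
  exact inc_inj (by rw [map_add, inc_cl, inc_cl, inc_cl, sC_fromBlocks])

theorem qc_add {P Q : Matrix n n (CF D)} (hP : IB Φ hΦ P) (hQ : IB Φ hΦ Q) (h1 : P * Q = 0)
    (h2 : Q * P = 0) (k : ℕ) : (hP.add hQ h1 h2).qc k = hP.qc k + hQ.qc k := by
  rw [← qc_fromBlocks]
  exact (qc_isoData (hP.add hQ h1 h2) (hP.fromBlocks hQ) (IsoData.of_add hP.idem hQ.idem h1 h2)
    (hP.bas.fromRows hQ.bas) (hP.bas.fromCols hQ.bas) k).symm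

theorem qc_cj {P : Matrix n n (CF D)} (hP : IB Φ hΦ P) {k : ℕ} (hk : Even k) :
    hP.cj.qc k = Cx.conj (hP.qc k) := by
  have h1 : hP.cj.cl k = Cx.conj (hP.cl k) := by
    refine inc_inj ?_
    rw [inc_cl, sC_cj, hk.neg_one_pow, one_smul]
    rfl
  unfold qc
  rw [h1]
  ext1
  · rfl
  · exact map_neg (qm Φ hΦ) _

/-- hermitian idempotents have real classes -/
theorem cl_herm {P : Matrix n n (CF D)} (hP : IB Φ hΦ P) (h2 : Pᵀ = ChW.cj P) (k : ℕ) :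
    hP.cl k = Cx.of ⟨sF k P, sF_even hP.idem k, sF_closed hP.idem k, sF_basic hP.bas k⟩ :=
  inc_inj (by rw [inc_cl, sC_of_herm hP.idem h2]; rfl)

theorem cl_rankOne {P : Matrix n n (CF D)} (hP : IB Φ hΦ P) (h1 : RankOne P) (k : ℕ) :
    hP.cl k = hP.cl 1 ^ k :=
  inc_inj (by rw [map_pow, inc_cl, inc_cl, sC_rankOne hP.idem h1 k])

theorem qc_rankOne {P : Matrix n n (CF D)} (hP : IB Φ hΦ P) (h1 : RankOne P) (k : ℕ) :
    hP.qc k = hP.qc 1 ^ k := by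
  unfold qc
  rw [hP.cl_rankOne h1 k, map_pow]

/-- tensor product with a line -/
theorem qc_kr {P : Matrix n n (CF D)} {Q : Matrix m m (CF D)} (hP : IB Φ hΦ P)
    (hQ : IB Φ hΦ Q) (h1 : RankOne P) (k : ℕ) :
    (hP.kr hQ).qc k =
      ∑ j ∈ Finset.range (k + 1), ((k.choose j : ℕ) : ℝ) • (hP.qc 1 ^ j * hQ.qc (k - j)) := by
  have h3 : (hP.kr hQ).cl k =
      ∑ j ∈ Finset.range (k + 1), ((k.choose j : ℕ) : ℝ) • (hP.cl 1 ^ j * hQ.cl (k - j)) := by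
    refine inc_inj ?_
    rw [inc_cl, sC_kr hP.idem hQ.idem, map_sum]
    refine Finset.sum_congr rfl fun j _ => ?_
    rw [inc_smul, map_mul, map_pow, inc_cl, inc_cl, ← sC_rankOne hP.idem h1 j,
      Complex.ofReal_natCast, Nat.cast_smul_eq_nsmul]
  unfold qc
  rw [h3, map_sum]
  refine Finset.sum_congr rfl fun j _ => ?_
  rw [mapR_smul, map_mul, map_pow]

/-- real bundles have real classes in even degrees -/
theorem cl_real {P : Matrix n n (Form D)} (hP : IB Φ hΦ (P.map Cx.of)) {k : ℕ} (hk : Even k) :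
    hP.cl k = Cx.of ⟨sF k (P.map Cx.of), sF_even hP.idem k, sF_closed hP.idem k,
      sF_basic hP.bas k⟩ := by
  refine inc_inj ?_
  obtain ⟨j, rfl⟩ := hk
  have h1 : sC (j + j) (P.map (Cx.of : Form D →+* CF D)) =
      ((((-1 / (4 * Real.pi ^ 2)) ^ j : ℝ)) : ℂ) • Cx.of (ch (j + j) P) := by
    rw [sC, ch_of, nrm, ← two_mul, pow_mul]
    congr 1
    push_cast
    congr 1
    rw [div_pow, Complex.I_sq]
    ring
  rw [inc_cl]
  have h2 : (sC (j + j) (P.map (Cx.of : Form D →+* CF D))).im = 0 := by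
    rw [h1, Cx.smul_im, Complex.ofReal_im, zero_smul, Cx.of_im, smul_zero, add_zero]
  ext1
  · rfl
  · exact h2

/-- `P + conj P` -/
theorem qc_conj_sum {P : Matrix n n (CF D)} (hP : IB Φ hΦ P) (h1 : P * ChW.cj P = 0)
    (h2 : ChW.cj P * P = 0) {k : ℕ} (hk : Even k) :
    (hP.add hP.cj h1 h2).qc k = hP.qc k + Cx.conj (hP.qc k) := by
  rw [qc_add hP hP.cj h1 h2, qc_cj hP hk]

end IB

/-! ### the relations -/

/-- a plane bundle `P ⊗ ℂ = L + conj L + M + conj M` -/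
structure FourLines (Φ : X × ℝ → X) (hΦ : (D.prod (Dif.lin ℝ)).Map D Φ)
    (P : Matrix n n (Form D)) (L M : Matrix n n (CF D)) : Prop where
  ibL : IB Φ hΦ L
  ibM : IB Φ hΦ M
  oneL : RankOne L
  oneM : RankOne M
  LL : L * cj L = 0
  MM : M * cj M = 0
  LM : L * M = 0
  ML : M * L = 0
  LM' : L * cj M = 0
  ML' : cj M * L = 0
  eq : P.map Cx.of = (L + cj L) + (M + cj M)

theorem cj_mul (P : Matrix n m (CF D)) (Q : Matrix m l (CF D)) : cj (P * Q) = cj P * cj Q := by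
  unfold cj
  rw [Matrix.map_mul]

theorem cj_cj (P : Matrix n m (CF D)) : cj (cj P) = P := by
  ext1 i j
  exact Cx.conj_conj _

theorem cj_zero : cj (0 : Matrix n m (CF D)) = 0 := by
  ext1 i j
  exact map_zero (Cx.conj : CF D →+* CF D)

namespace FourLines

variable {P : Matrix n n (Form D)} {L M : Matrix n n (CF D)}

theorem LL2 (h : FourLines Φ hΦ P L M) : cj L * L = 0 := by
  have := congrArg cj h.LL
  rwa [cj_mul, cj_cj, cj_zero] at this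

theorem MM2 (h : FourLines Φ hΦ P L M) : cj M * M = 0 := by
  have := congrArg cj h.MM
  rwa [cj_mul, cj_cj, cj_zero] at this

theorem ibLL (h : FourLines Φ hΦ P L M) : IB Φ hΦ (L + cj L) := h.ibL.add h.ibL.cj h.LL h.LL2

theorem ibMM (h : FourLines Φ hΦ P L M) : IB Φ hΦ (M + cj M) := h.ibM.add h.ibM.cj h.MM h.MM2

theorem cross (h : FourLines Φ hΦ P L M) : (L + cj L) * (M + cj M) = 0 := by
  have h1 := congrArg cj h.LM'
  have h2 := congrArg cj h.LM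
  rw [cj_mul, cj_zero] at h1 h2
  rw [cj_cj] at h1
  rw [Matrix.add_mul, Matrix.mul_add, Matrix.mul_add, h.LM, h.LM', h1, h2]
  simp

theorem cross' (h : FourLines Φ hΦ P L M) : (M + cj M) * (L + cj L) = 0 := by
  have h1 := congrArg cj h.ML'
  have h2 := congrArg cj h.ML
  rw [cj_mul, cj_zero] at h1 h2
  rw [cj_cj] at h1
  rw [Matrix.add_mul, Matrix.mul_add, Matrix.mul_add, h.ML, h.ML', h1, h2]
  simp

theorem ibP (h : FourLines Φ hΦ P L M) : IB Φ hΦ (P.map Cx.of) := by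
  rw [h.eq]
  exact h.ibLL.add h.ibMM h.cross h.cross'

/-- the classes of `P` -/
theorem qc_P (h : FourLines Φ hΦ P L M) {y z : Hb Φ hΦ} (hy : h.ibL.qc 1 ^ 2 = Cx.of (y ^ 2))
    (hz : h.ibM.qc 1 ^ 2 = Cx.of (z ^ 2)) (j : ℕ) :
    h.ibP.qc (2 * j) = Cx.of ((2 : ℝ) • (y ^ (2 * j) + z ^ (2 * j))) := by
  have hk : Even (2 * j) := even_two_mul j
  have h1 : h.ibP.qc (2 * j) = (h.ibLL.add h.ibMM h.cross h.cross').qc (2 * j) :=
    IB.qc_congr _ _ h.eq _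
  have h2 := IB.qc_conj_sum h.ibL h.LL h.LL2 hk
  have h3 := IB.qc_conj_sum h.ibM h.MM h.MM2 hk
  rw [h.ibL.qc_rankOne h.oneL, pow_mul, hy, ← Cx.of_pow', ← pow_mul, Cx.conj_of] at h2
  rw [h.ibM.qc_rankOne h.oneM, pow_mul, hz, ← Cx.of_pow', ← pow_mul, Cx.conj_of] at h3
  have h4 : h.ibLL.qc (2 * j) = _ := h2
  have h5 : h.ibMM.qc (2 * j) = _ := h3
  rw [h1, IB.qc_add h.ibLL h.ibMM h.cross h.cross', h4, h5, ← Cx.of_add', ← Cx.of_add',
    ← Cx.of_add', two_smul]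
  congr 1
  abel

end FourLines

/-- a real bundle `T = P + Q`, with `P` as above and `Q ⊗ ℂ = Z + conj Z` -/
structure Split (Φ : X × ℝ → X) (hΦ : (D.prod (Dif.lin ℝ)).Map D Φ)
    (T P : Matrix n n (Form D)) (L M Z : Matrix n n (CF D)) : Prop where
  four : FourLines Φ hΦ P L M
  ibZ : IB Φ hΦ Z
  ZZ : Z * cj Z = 0
  ibT : IB Φ hΦ (T.map Cx.of)
  PQ : P.map Cx.of * (Z + cj Z) = 0
  QP : (Z + cj Z) * P.map Cx.of = 0
  eq : T.map Cx.of = P.map Cx.of + (Z + cj Z)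

namespace Split

variable {T P : Matrix n n (Form D)} {L M Z : Matrix n n (CF D)}

theorem ZZ2 (h : Split Φ hΦ T P L M Z) : cj Z * Z = 0 := by
  have := congrArg cj h.ZZ
  rwa [cj_mul, cj_cj, cj_zero] at this

theorem ibZZ (h : Split Φ hΦ T P L M Z) : IB Φ hΦ (Z + cj Z) := h.ibZ.add h.ibZ.cj h.ZZ h.ZZ2

theorem qc_T (h : Split Φ hΦ T P L M Z) {y z : Hb Φ hΦ}
    (hy : h.four.ibL.qc 1 ^ 2 = Cx.of (y ^ 2)) (hz : h.four.ibM.qc 1 ^ 2 = Cx.of (z ^ 2)) {j : ℕ}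
    {s : Hb Φ hΦ} (hs : h.ibZ.qc (2 * j) = Cx.of s) :
    h.ibT.qc (2 * j) = Cx.of ((2 : ℝ) • (y ^ (2 * j) + z ^ (2 * j)) + (2 : ℝ) • s) := by
  have hk : Even (2 * j) := even_two_mul j
  have h1 : h.ibT.qc (2 * j) = (h.four.ibP.add h.ibZZ h.PQ h.QP).qc (2 * j) :=
    IB.qc_congr _ _ h.eq _
  have h3 : h.ibZZ.qc (2 * j) = _ := IB.qc_conj_sum h.ibZ h.ZZ h.ZZ2 hk
  rw [hs, Cx.conj_of, ← Cx.of_add', ← two_smul ℝ] at h3
  rw [h1, IB.qc_add h.four.ibP h.ibZZ h.PQ h.QP, h3, h.four.qc_P hy hz, ← Cx.of_add']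

end Split

/-- the bundles over `V = V₂(P)` and their classes: `T1`, `T2` the two tangent bundles, `P1`, `P2`
the two planes, `T1 - P1` complexified is `W + conj W`, `T2 - P2` complexified is `Z + conj Z`,
`W ≅ L ⊗ Z`, and `Z` has a hermitian projector `H` -/
structure Bun (Φ : X × ℝ → X) (hΦ : (D.prod (Dif.lin ℝ)).Map D Φ) (N : ℕ) (c : ℝ)
    (x1 x2 y z : Hb Φ hΦ) (T1 P1 T2 P2 : Matrix n n (Form D))
    (L1 M1 W L2 M2 Z H : Matrix n n (CF D)) (L : Matrix m m (CF D))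
    (a : Matrix n (m × n) (CF D)) (b : Matrix (m × n) n (CF D)) : Prop where
  s1 : Split Φ hΦ T1 P1 L1 M1 W
  s2 : Split Φ hΦ T2 P2 L2 M2 Z
  ibH : IB Φ hΦ H
  herH : Hᵀ = cj H
  ZH : Z * H = H
  HZ : H * Z = Z
  ibL : IB Φ hΦ L
  oneL : RankOne L
  eva : Ev a
  evb : Ev b
  basa : BasicM Φ hΦ a
  basb : BasicM Φ hΦ b
  ab : a * b = W
  ba : b * a = kr L Z
  y0 : ibL.qc 1 = Cx.of y
  y1 : s1.four.ibL.qc 1 ^ 2 = Cx.of (y ^ 2)
  y2 : s2.four.ibL.qc 1 ^ 2 = Cx.of (y ^ 2)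
  z1 : s1.four.ibM.qc 1 ^ 2 = Cx.of (z ^ 2)
  z2 : s2.four.ibM.qc 1 ^ 2 = Cx.of (z ^ 2)
  t1 : ∀ j, 1 ≤ j → j ≤ N → s1.ibT.qc (2 * j) = Cx.of (S2X.tau N c j • x1 ^ j)
  t2 : ∀ j, 1 ≤ j → j ≤ N → s2.ibT.qc (2 * j) = Cx.of (S2X.tau N c j • x2 ^ j)

namespace Bun

variable {N : ℕ} {c : ℝ} {x1 x2 y z : Hb Φ hΦ} {T1 P1 T2 P2 : Matrix n n (Form D)}
  {L1 M1 W L2 M2 Z H : Matrix n n (CF D)} {L : Matrix m m (CF D)}
  {a : Matrix n (m × n) (CF D)} {b : Matrix (m × n) n (CF D)}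

/-- the real class of `Z` -/
noncomputable def sZ (h : Bun Φ hΦ N c x1 x2 y z T1 P1 T2 P2 L1 M1 W L2 M2 Z H L a b) (k : ℕ) :
    H584.Bas Φ hΦ := ⟨sF k H, sF_even h.ibH.idem k, sF_closed h.ibH.idem k, sF_basic h.ibH.bas k⟩

theorem qc_Z (h : Bun Φ hΦ N c x1 x2 y z T1 P1 T2 P2 L1 M1 W L2 M2 Z H L a b) (k : ℕ) :
    h.s2.ibZ.qc k = Cx.of (qm Φ hΦ (h.sZ k)) := by
  rw [← IB.qc_image h.s2.ibZ h.ibH h.ZH h.HZ k, IB.qc, IB.cl_herm h.ibH h.herH k]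
  ext1
  · rfl
  · exact map_zero (qm Φ hΦ)

theorem r2 (h : Bun Φ hΦ N c x1 x2 y z T1 P1 T2 P2 L1 M1 W L2 M2 Z H L a b) {j : ℕ} (h1 : 1 ≤ j)
    (h2 : j ≤ N) : (2 : ℝ) • qm Φ hΦ (h.sZ (2 * j)) =
      S2X.tau N c j • x2 ^ j - (2 : ℝ) • (y ^ (2 * j) + z ^ (2 * j)) := by
  have h3 := h.s2.qc_T h.y2 h.z2 (h.qc_Z (2 * j))
  rw [h.t2 j h1 h2] at h3
  have h4 := congrArg Cx.re h3
  rw [Cx.of_re, Cx.of_re] at h4
  rw [h4]
  abel

theorem qc_W (h : Bun Φ hΦ N c x1 x2 y z T1 P1 T2 P2 L1 M1 W L2 M2 Z H L a b) (k : ℕ) :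
    h.s1.ibZ.qc k = Cx.of (∑ i ∈ Finset.range (k + 1),
      ((k.choose i : ℕ) : ℝ) • (y ^ i * qm Φ hΦ (h.sZ (k - i)))) := by
  rw [IB.qc_iso (h.ibL.kr h.s2.ibZ) h.s1.ibZ h.eva h.evb h.ab h.ba h.basa h.basb k,
    IB.qc_kr h.ibL h.s2.ibZ h.oneL k, h.y0, Cx.of_sum']
  refine Finset.sum_congr rfl fun i _ => ?_
  rw [h.qc_Z, Cx.of_smul', Cx.of_mul', Cx.of_pow']

theorem r1 (h : Bun Φ hΦ N c x1 x2 y z T1 P1 T2 P2 L1 M1 W L2 M2 Z H L a b) {j : ℕ} (h1 : 1 ≤ j)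
    (h2 : j ≤ N) : (2 : ℝ) • ∑ i ∈ Finset.range (2 * j + 1),
      ((2 * j).choose i : ℝ) • (y ^ i * qm Φ hΦ (h.sZ (2 * j - i))) =
      S2X.tau N c j • x1 ^ j - (2 : ℝ) • (y ^ (2 * j) + z ^ (2 * j)) := by
  have h3 := h.s1.qc_T h.y1 h.z1 (h.qc_W (2 * j))
  rw [h.t1 j h1 h2] at h3
  have h4 := congrArg Cx.re h3
  rw [Cx.of_re, Cx.of_re] at h4
  rw [h4]
  abel

/-- the relations of `S2X` -/
theorem rel (h : Bun Φ hΦ N c x1 x2 y z T1 P1 T2 P2 L1 M1 W L2 M2 Z H L a b) (hc : c ≠ 0)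
    (hyz : y * z = x1 - x2) (hsq : y ^ 2 + z ^ 2 = (2 * c) • (x1 + x2)) {r : ℝ}
    (hr : (trace H).re = algebraMap ℝ (Form D) r) :
    S2X.Rel N c x1 x2 y z (fun k => qm Φ hΦ (h.sZ k)) (newtE ℝ fun k => qm Φ hΦ (h.sZ k)) where
  hc := hc
  yz := hyz
  sq := hsq
  s0 := ⟨r, by
    have h1 : h.sZ 0 = algebraMap ℝ (H584.Bas Φ hΦ) r := by
      refine Subtype.ext ?_
      change sF 0 H = _
      rw [sF_zero, hr]
      rfl
    change qm Φ hΦ (h.sZ 0) = _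
    rw [h1, AlgHom.commutes]⟩
  r2 := fun j h1 h2 => h.r2 h1 h2
  r1 := fun j h1 h2 => h.r1 h1 h2
  C0 := (newtE_spec _).1
  newton := fun j _ => (newtE_spec _).2 j

/-- the top class vanishes -/
theorem top (h : Bun Φ hΦ N c x1 x2 y z T1 P1 T2 P2 L1 M1 W L2 M2 Z H L a b) {r : ℕ}
    {p : X → Matrix n n ℂ} (hp : RankLE r H p) {j : ℕ} (hj : r < j) :
    newtE ℝ (fun k => qm Φ hΦ (h.sZ k)) j = 0 :=
  hp.newton_quot (Complex.I / (2 * Real.pi)) (H584.Bas Φ hΦ).val Subtype.val_injective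
    (qm Φ hΦ) (σ := fun k => h.sZ k) (fun k => by
      change (Cx.of (sF (k + 1) H) : CF D) = _
      rw [← sC_of_herm h.ibH.idem h.herH]
      rfl) (newtE_spec _) hj

/-- **the end of the bundle argument** -/
theorem abs_lt_three (h : Bun Φ hΦ N c x1 x2 y z T1 P1 T2 P2 L1 M1 W L2 M2 Z H L a b)
    (hN : 2 ≤ N) (hc : c ≠ 0) (hyz : y * z = x1 - x2)
    (hsq : y ^ 2 + z ^ 2 = (2 * c) • (x1 + x2)) {r : ℝ}
    (hr : (trace H).re = algebraMap ℝ (Form D) r) {p : X → Matrix n n ℂ}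
    (hp : RankLE (2 * N - 2) H p) {κ : ℝ} (hκ : κ ≠ 0)
    {I : Hb Φ hΦ →ₗ[ℝ] ℝ} (V : S2X.Val N κ x1 x2 y z I) : |c| < 3 := by
  by_contra hcon
  exact S2X.algX hN (not_lt.1 hcon) hκ (h.rel hc hyz hsq hr) V (h.top hp (by omega))

end Bun

end Vale.Agent.P231.ChW
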