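import Vale.Agent.P231.ChW.Bun
import Vale.Agent.P231.X3.SF

/-!
# P231, stage 2: hermitian projectors, rank one idempotents and their first Chern form, for
matrices of functions
-/

set_option linter.unusedSectionVars false
set_option linter.unusedVariables false

open Matrix Set Filter Topology
open scoped ContDiff ComplexOrder

namespace Vale.Agent.P231.ChW

open Fm W X3

/-! ### the hermitian projector onto the image of an idempotent -/

section Herm

variable {n : Type*} [Fintype n] [DecidableEq n]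

/-- the hermitian projector onto the image of the idempotent `p` -/
noncomputable def hp (p : Matrix n n ℂ) : Matrix n n ℂ := p * (p + pᴴ - 1)⁻¹

variable {p : Matrix n n ℂ}

theorem isUnit_hp (h : p * p = p) : IsUnit (p + pᴴ - 1) := by
  have h1 : pᴴ * pᴴ = pᴴ := by rw [← conjTranspose_mul, h]
  have h2 : (p + pᴴ - 1) * (p + pᴴ - 1) = 1 + (p - pᴴ) * (p - pᴴ)ᴴ := by
    rw [conjTranspose_sub, conjTranspose_conjTranspose]
    have e1 : (p + pᴴ - 1) * (p + pᴴ - 1) = p * p + p * pᴴ + pᴴ * p + pᴴ * pᴴ - p - pᴴ - p -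
        pᴴ + 1 := by noncomm_ring
    have e2 : (p - pᴴ) * (pᴴ - p) = p * pᴴ - p * p - pᴴ * pᴴ + pᴴ * p := by noncomm_ring
    rw [e1, e2, h, h1]
    abel
  have h3 : (1 + (p - pᴴ) * (p - pᴴ)ᴴ).PosDef :=
    PosDef.one.add_posSemidef (posSemidef_self_mul_conjTranspose _)
  have h4 := h3.isUnit
  rw [← h2] at h4
  exact isUnit_of_mul_isUnit_left h4

theorem hp_herm (h : p * p = p) : (hp p)ᴴ = hp p := by
  have h1 : pᴴ * pᴴ = pᴴ := by rw [← conjTranspose_mul, h]
  have hA := isUnit_hp h
  set A := p + pᴴ - 1 with hAd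
  have hAA : Aᴴ = A := by
    rw [hAd, conjTranspose_sub, conjTranspose_add, conjTranspose_conjTranspose,
      conjTranspose_one, add_comm]
  have e1 : A * p = pᴴ * A := by
    rw [hAd, sub_mul, add_mul, h, one_mul, mul_sub, mul_add, h1, mul_one]
    abel
  have hd : IsUnit A.det := (isUnit_iff_isUnit_det A).1 hA
  have e2 : p * A⁻¹ = A⁻¹ * pᴴ := by
    have : A⁻¹ * (A * p) * A⁻¹ = A⁻¹ * (pᴴ * A) * A⁻¹ := by rw [e1]
    rw [← mul_assoc, nonsing_inv_mul _ hd, one_mul, mul_assoc, mul_assoc, mul_nonsing_inv _ hd,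
      mul_one] at this
    exact this
  rw [hp, conjTranspose_mul, conjTranspose_nonsing_inv, hAA, ← e2]

theorem mul_hp (h : p * p = p) : p * hp p = hp p := by
  rw [hp, ← mul_assoc, h]

theorem hp_mul (h : p * p = p) : hp p * p = p := by
  have h1 : pᴴ * pᴴ = pᴴ := by rw [← conjTranspose_mul, h]
  have hA := isUnit_hp h
  have h2 : (hp p) * p = ((hp p)ᴴ) * p := by rw [hp_herm h]
  rw [h2, hp, conjTranspose_mul, conjTranspose_nonsing_inv]
  set A := p + pᴴ - 1 with hAd
  have hAA : Aᴴ = A := by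
    rw [hAd, conjTranspose_sub, conjTranspose_add, conjTranspose_conjTranspose,
      conjTranspose_one, add_comm]
  have hd : IsUnit A.det := (isUnit_iff_isUnit_det A).1 hA
  have e1 : pᴴ * p = A * p := by
    rw [hAd, sub_mul, add_mul, h, one_mul]
    abel
  rw [hAA, mul_assoc, e1, ← mul_assoc, nonsing_inv_mul _ hd, one_mul]

theorem hp_idem (h : p * p = p) : hp p * hp p = hp p := by
  calc hp p * hp p = hp p * (p * hp p) := by rw [mul_hp h]
    _ = hp p := by rw [← mul_assoc, hp_mul h, mul_hp h]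

theorem trace_hp (h : p * p = p) : trace (hp p) = trace p := by
  rw [← mul_hp h, trace_mul_comm, hp_mul h]

end Herm

/-! ### the first Chern form of a line -/

/-- real part -/
def reH {A : Type*} [Ring A] : Cx A →+ A where
  toFun := Cx.re
  map_zero' := rfl
  map_add' _ _ := rfl

/-- imaginary part -/
def imH {A : Type*} [Ring A] : Cx A →+ A where
  toFun := Cx.im
  map_zero' := rfl
  map_add' _ _ := rfl

section Line

variable {A : Type*} [Ring A] [Algebra ℝ A] [GDA A]
variable {n : Type*} [Fintype n] [DecidableEq n]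

theorem odd_sq {a : A} (h : GDA.sg a = -a) : a * a = 0 := by
  have h1 := GDA.odd a a h
  rw [h, neg_mul] at h1
  have h2 : (2 : ℝ) • (a * a) = 0 := by
    rw [two_smul]
    nth_rewrite 1 [h1]
    exact neg_add_cancel _
  exact (smul_eq_zero.1 h2).resolve_left two_ne_zero

theorem ch_one_vec {u : Matrix n Unit A} {w : Matrix Unit n A} (hu : Ev u) (hw : Ev w)
    (h : w * u = 1) : ch 1 (u * w) = trace (dM (w * dM u)) := by
  have h1 : dM w * u = -(w * dM u) := by
    have h2 := congrArg dM h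
    rw [dM_mul, hw, dM_one] at h2
    exact eq_neg_of_add_eq_zero_left h2
  have h3 : dM (u * w) = dM u * w + u * dM w := by rw [dM_mul, hu]
  have hθ : Od (w * dM u) := hw.mul_od hu.dM
  have h4 : (w * dM u) * (w * dM u) = 0 := by
    ext i j
    rw [Matrix.mul_apply, Fintype.sum_unique]
    have : (w * dM u) i default = (w * dM u) default j := rfl
    rw [this]
    exact odd_sq (hθ.apply _ _)
  have h5 : u * w * dM (u * w) = u * (w * dM u * w + dM w) := by
    rw [h3, Matrix.mul_add, Matrix.mul_add]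
    congr 1
    · simp only [Matrix.mul_assoc]
    · rw [← Matrix.mul_assoc, Matrix.mul_assoc u w u, h, Matrix.mul_one]
  have h6 : u * w * dd (u * w) = u * (dM w * dM u * w) := by
    rw [dd, ← Matrix.mul_assoc, h5, h3, Matrix.mul_assoc]
    congr 1
    rw [Matrix.mul_add, Matrix.add_mul, Matrix.add_mul]
    have e1 : w * dM u * w * (dM u * w) = 0 := by
      have : w * dM u * w * (dM u * w) = (w * dM u) * (w * dM u) * w := by
        simp only [Matrix.mul_assoc]
      rw [this, h4, Matrix.zero_mul]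
    have e2 : w * dM u * w * (u * dM w) = w * dM u * dM w := by
      rw [Matrix.mul_assoc (w * dM u), ← Matrix.mul_assoc w u, h, Matrix.one_mul]
    have e3 : dM w * (u * dM w) = -(w * dM u * dM w) := by
      rw [← Matrix.mul_assoc, h1, Matrix.neg_mul]
    rw [e1, e2, e3, ← Matrix.mul_assoc]
    abel
  rw [ch, pow_one, h6, hu.trace_comm, Matrix.mul_assoc, Matrix.mul_assoc, h, Matrix.mul_one,
    dM_mul, hw, dM_dM, Matrix.mul_zero, add_zero]

end Line

/-! ### functions -/

section Fun

variable {X Y : Type*} {D : Dif X} {D' : Dif Y}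
variable {n m l : Type*} [Fintype n] [DecidableEq n] [Fintype m] [DecidableEq m] [Fintype l]
  [DecidableEq l]
variable {Φ : X × ℝ → X} {hΦ : (D.prod (Dif.lin ℝ)).Map D Φ}

theorem smM_conjTranspose {a : X → Matrix m n ℂ} (ha : SmM D a) : SmM D (fun x => (a x)ᴴ) :=
  fun i j => (ha j i).conj

theorem smM_hp {a : X → Matrix n n ℂ} (ha : SmM D a) (h : ∀ x, a x * a x = a x) :
    SmM D (fun x => hp (a x)) :=
  ha.mul (SmM.inv ((ha.add (smM_conjTranspose ha)).sub (SmM.const D 1)) fun x => isUnit_hp (h x))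

/-- basic idempotents from functions -/
theorem ib_cM {a : X → Matrix n n ℂ} (ha : SmM D a) (h : ∀ x, a x * a x = a x)
    (h' : ∀ x t, a (Φ (x, t)) = a x) : IB Φ hΦ (cM a ha) :=
  ⟨idem_cM ha h, basicM_cM ha h'⟩

theorem ib_hp {a : X → Matrix n n ℂ} (ha : SmM D a) (h : ∀ x, a x * a x = a x)
    (h' : ∀ x t, a (Φ (x, t)) = a x) : IB Φ hΦ (cM (fun x => hp (a x)) (smM_hp ha h)) :=
  ib_cM _ (fun x => hp_idem (h x)) fun x t => by rw [h']

theorem herm_hp {a : X → Matrix n n ℂ} (ha : SmM D a) (h : ∀ x, a x * a x = a x) :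
    (cM (fun x => hp (a x)) (smM_hp ha h))ᵀ = cj (cM (fun x => hp (a x)) (smM_hp ha h)) := by
  rw [cM_transpose, cj_cM]
  refine cM_congr _ _ fun x => ?_
  have h1 := hp_herm (h x)
  have h2 : ((hp (a x))ᴴ)ᵀ = (hp (a x)).map (starRingEnd ℂ) := by
    ext i j
    rfl
  rw [← h2, h1]

theorem cM_mul_hp {a : X → Matrix n n ℂ} (ha : SmM D a) (h : ∀ x, a x * a x = a x) :
    cM a ha * cM (fun x => hp (a x)) (smM_hp ha h) = cM (fun x => hp (a x)) (smM_hp ha h) := by
  rw [cM_mul]
  exact cM_congr _ _ fun x => mul_hp (h x)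

theorem hp_mul_cM {a : X → Matrix n n ℂ} (ha : SmM D a) (h : ∀ x, a x * a x = a x) :
    cM (fun x => hp (a x)) (smM_hp ha h) * cM a ha = cM a ha := by
  rw [cM_mul]
  exact cM_congr _ _ fun x => hp_mul (h x)

theorem rankLE_hp {a : X → Matrix n n ℂ} (ha : SmM D a) (h : ∀ x, a x * a x = a x) {r : ℕ}
    (hr : ∀ x, trace (a x) = r) :
    RankLE r (cM (fun x => hp (a x)) (smM_hp ha h)) (fun x => hp (a x)) :=
  rankLE_cM _ (fun x => hp_idem (h x)) fun x =>
    (rank_eq_of_trace (hp_idem (h x)) (by rw [trace_hp (h x), hr])).le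

theorem trace_cM_re {a : X → Matrix n n ℂ} (ha : SmM D a) {r : ℕ}
    (hr : ∀ x, trace (a x) = r) : (trace (cM a ha)).re = algebraMap ℝ (Form D) r := by
  rw [trace_cM, cf_congr _ (SmF.const D (r : ℂ)) hr, cf_re, ← fr_const]
  exact fr_congr _ _ fun x => Complex.natCast_re r

theorem trace_hp_re {a : X → Matrix n n ℂ} (ha : SmM D a) (h : ∀ x, a x * a x = a x) {r : ℕ}
    (hr : ∀ x, trace (a x) = r) :
    (trace (cM (fun x => hp (a x)) (smM_hp ha h))).re = algebraMap ℝ (Form D) r :=
  trace_cM_re _ fun x => by rw [trace_hp (h x), hr]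

/-- idempotents of trace one -/
theorem rankOne_cM {a : X → Matrix n n ℂ} (ha : SmM D a) (h : ∀ x, a x * a x = a x)
    (hr : ∀ x, trace (a x) = 1) : RankOne (cM a ha) where
  minors i j k l := by
    rw [cM_apply, cM_apply, cM_apply, cM_apply, ← cf_mul, ← cf_mul]
    refine cf_congr _ _ fun x => ?_
    obtain ⟨u, v, h1, h2⟩ := exists_factor (h x)
    have h3 : (a x).rank = 1 :=
      rank_eq_of_trace (h x) (by rw [hr]; norm_num)
    have h4 : ∀ i j, a x i j = u i ⟨0, by omega⟩ * v ⟨0, by omega⟩ j := by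
      intro i j
      conv_lhs => rw [← h1]
      rw [Matrix.mul_apply]
      refine Finset.sum_eq_single _ (fun s _ hs => ?_) fun hs => (hs (Finset.mem_univ _)).elim
      exact (hs (Fin.ext (by have := s.2; simp only; omega))).elim
    rw [h4 i j, h4 k l, h4 i l, h4 k j]
    ring
  tr := by
    rw [trace_cM, cf_congr _ (SmF.const D (1 : ℂ)) hr, cf_one]

theorem fr_sum {ι : Type*} (s : Finset ι) {f : ι → X → ℝ} (hf : ∀ i, SmF D (f i)) :
    fr (fun x => ∑ i ∈ s, f i x) (SmF.sum s fun i _ => hf i) = ∑ i ∈ s, fr (f i) (hf i) := by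
  classical
  induction s using Finset.induction_on with
  | empty =>
    rw [Finset.sum_empty, ← fr_zero]
    exact fr_congr _ _ fun x => Finset.sum_empty
  | insert a s ha ih =>
    rw [Finset.sum_insert ha, ← ih, ← fr_add]
    exact fr_congr _ _ fun x => Finset.sum_insert ha

/-- the connection form `⟨w, dv⟩` of two families of vectors -/
noncomputable def conn {V Wv : X → n → ℝ} (hV : ∀ i, SmF D (fun x => V x i))
    (hW : ∀ i, SmF D (fun x => Wv x i)) : Form D :=
  ∑ i, fr _ (hW i) * (fr _ (hV i)).d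

/-- the first Chern form of the line spanned by `v - i w`, for orthonormal `v`, `w` -/
theorem ch_line {V Wv : X → n → ℝ} (hV : ∀ i, SmF D (fun x => V x i))
    (hW : ∀ i, SmF D (fun x => Wv x i)) (h1 : ∀ x, ∑ i, V x i * V x i = 1)
    (h2 : ∀ x, ∑ i, Wv x i * Wv x i = 1) (h3 : ∀ x, ∑ i, Wv x i * V x i = 0)
    {p : X → Matrix n n ℂ} (hp : SmM D p) (h : ∀ x i j, p x i j =
      (1 / 2 : ℂ) * ((V x i - Complex.I * Wv x i) * (V x j + Complex.I * Wv x j))) :
    ch 1 (cM p hp) = ⟨0, (conn hV hW).d⟩ := by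
  set v : n → Form D := fun i => fr _ (hV i) with hv
  set w : n → Form D := fun i => fr _ (hW i) with hw
  have ev : ∀ i, (v i).sg = v i := fun i => sg_fr _
  have ew : ∀ i, (w i).sg = w i := fun i => sg_fr _
  have vv : ∑ i, v i * v i = 1 := by
    have := fr_sum (D := D) Finset.univ (f := fun i x => V x i * V x i)
      fun i => (hV i).mul (hV i)
    rw [← fr_one, show (∑ i, v i * v i) = ∑ i, fr _ ((hV i).mul (hV i)) from
      Finset.sum_congr rfl fun i _ => (fr_mul _ _).symm, ← this]
    exact fr_congr _ _ h1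
  have ww : ∑ i, w i * w i = 1 := by
    have := fr_sum (D := D) Finset.univ (f := fun i x => Wv x i * Wv x i)
      fun i => (hW i).mul (hW i)
    rw [← fr_one, show (∑ i, w i * w i) = ∑ i, fr _ ((hW i).mul (hW i)) from
      Finset.sum_congr rfl fun i _ => (fr_mul _ _).symm, ← this]
    exact fr_congr _ _ h2
  have wv : ∑ i, w i * v i = 0 := by
    have := fr_sum (D := D) Finset.univ (f := fun i x => Wv x i * V x i)
      fun i => (hW i).mul (hV i)
    rw [← fr_zero, show (∑ i, w i * v i) = ∑ i, fr _ ((hW i).mul (hV i)) from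
      Finset.sum_congr rfl fun i _ => (fr_mul _ _).symm, ← this]
    exact fr_congr _ _ h3
  set U : Matrix n Unit (CF D) := fun i _ => ⟨v i, -w i⟩ with hU
  set T : Matrix Unit n (CF D) := fun _ i => ⟨(1 / 2 : ℝ) • v i, (1 / 2 : ℝ) • w i⟩ with hT
  have evU : Ev U := by
    unfold Ev
    ext1 i j
    ext1
    · exact ev i
    · change (-w i).sg = -w i
      rw [Form.sg_neg, ew]
  have evT : Ev T := by
    unfold Ev
    ext1 i j
    ext1
    · change ((1 / 2 : ℝ) • v j).sg = (1 / 2 : ℝ) • v j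
      rw [Form.sg_smul, ev]
    · change ((1 / 2 : ℝ) • w j).sg = (1 / 2 : ℝ) • w j
      rw [Form.sg_smul, ew]
  have re_sum : ∀ f : n → CF D, (∑ i, f i).re = ∑ i, (f i).re := fun f =>
    map_sum (reH (A := Form D)) _ _
  have im_sum : ∀ f : n → CF D, (∑ i, f i).im = ∑ i, (f i).im := fun f =>
    map_sum (imH (A := Form D)) _ _
  have cm : ∀ i, v i * w i = w i * v i := fun i => Form.mul_comm_of_even (ev i) _
  have hTU : T * U = 1 := by
    ext1 i j
    rw [Matrix.mul_apply, Subsingleton.elim i j, Matrix.one_apply_eq]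
    ext1
    · rw [re_sum]
      have : ∀ k, (T j k * U k j).re = (1 / 2 : ℝ) • (v k * v k) + (1 / 2 : ℝ) • (w k * w k) := by
        intro k
        rw [Cx.mul_re]
        change (1 / 2 : ℝ) • v k * v k - (1 / 2 : ℝ) • w k * -w k = _
        rw [mul_neg, sub_neg_eq_add, smul_mul_assoc, smul_mul_assoc]
      simp only [this]
      rw [Finset.sum_add_distrib, ← Finset.smul_sum, ← Finset.smul_sum, vv, ww, ← add_smul]
      norm_num
    · rw [im_sum]
      have : ∀ k, (T j k * U k j).im = 0 := by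
        intro k
        rw [Cx.mul_im]
        change (1 / 2 : ℝ) • v k * -w k + (1 / 2 : ℝ) • w k * v k = _
        rw [mul_neg, smul_mul_assoc, smul_mul_assoc, cm, neg_add_cancel]
      simp only [this]
      rw [Finset.sum_const_zero]
      rfl
  have hUT : U * T = cM p hp := by
    ext1 i j
    rw [Matrix.mul_apply, Fintype.sum_unique, cM_apply]
    ext1
    · rw [Cx.mul_re, cf_re]
      change v i * ((1 / 2 : ℝ) • v j) - -w i * ((1 / 2 : ℝ) • w j) = _
      have e1 : v i * ((1 / 2 : ℝ) • v j) - -w i * ((1 / 2 : ℝ) • w j) =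
          algebraMap ℝ (Form D) (1 / 2) * (v i * v j + w i * w j) := by
        rw [neg_mul, sub_neg_eq_add, mul_smul_comm, mul_smul_comm, ← smul_add,
          Algebra.smul_def]
      rw [e1, hv, hw, ← fr_const, ← fr_mul, ← fr_mul, ← fr_add, ← fr_mul]
      refine fr_congr _ _ fun x => ?_
      rw [h]
      simp only [Complex.mul_re, Complex.mul_im, Complex.sub_re, Complex.sub_im, Complex.add_re,
        Complex.add_im, Complex.ofReal_re, Complex.ofReal_im, Complex.I_re, Complex.I_im]
      norm_num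
    · rw [Cx.mul_im, cf_im]
      change v i * ((1 / 2 : ℝ) • w j) + -w i * ((1 / 2 : ℝ) • v j) = _
      have e1 : v i * ((1 / 2 : ℝ) • w j) + -w i * ((1 / 2 : ℝ) • v j) =
          algebraMap ℝ (Form D) (1 / 2) * (v i * w j - w i * v j) := by
        rw [neg_mul, mul_smul_comm, mul_smul_comm, ← smul_neg, ← smul_add,
          Algebra.smul_def, sub_eq_add_neg]
      rw [e1, hv, hw, ← fr_const, ← fr_mul, ← fr_mul, ← fr_sub, ← fr_mul]
      refine fr_congr _ _ fun x => ?_
      rw [h]
      simp only [Complex.mul_re, Complex.mul_im, Complex.sub_re, Complex.sub_im, Complex.add_re,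
        Complex.add_im, Complex.ofReal_re, Complex.ofReal_im, Complex.I_re, Complex.I_im]
      norm_num
      ring
  have half : ∀ a : Form D, a + a = 0 → a = 0 := fun a ha => by
    have h2 : (2 : ℝ) • a = 0 := by rw [two_smul, ha]
    exact (smul_eq_zero.1 h2).resolve_left two_ne_zero
  have dsum : ∀ f : n → Form D, (∑ i, f i).d = ∑ i, (f i).d := fun f =>
    map_sum (GDA.d (A := Form D)) _ _
  have vdv : ∑ i, v i * (v i).d = 0 := by
    refine half _ ?_
    have h4 := congrArg Form.d vv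
    rw [dsum, Form.d_one] at h4
    rw [← Finset.sum_add_distrib, ← h4]
    refine Finset.sum_congr rfl fun i _ => ?_
    rw [Form.d_mul, ev, Form.mul_comm_of_even (ev i)]
  have wdw : ∑ i, w i * (w i).d = 0 := by
    refine half _ ?_
    have h4 := congrArg Form.d ww
    rw [dsum, Form.d_one] at h4
    rw [← Finset.sum_add_distrib, ← h4]
    refine Finset.sum_congr rfl fun i _ => ?_
    rw [Form.d_mul, ew, Form.mul_comm_of_even (ew i)]
  have vdw : ∑ i, v i * (w i).d = -∑ i, w i * (v i).d := by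
    have h4 := congrArg Form.d wv
    rw [dsum, Form.d_zero] at h4
    refine eq_neg_of_add_eq_zero_left ?_
    rw [← Finset.sum_add_distrib, ← h4]
    refine Finset.sum_congr rfl fun i _ => ?_
    rw [Form.d_mul, ew, Form.mul_comm_of_even (ev i)]
  have hθ : T * dM U = fun _ _ => ⟨0, conn hV hW⟩ := by
    ext1 i j
    rw [Matrix.mul_apply]
    ext1
    · rw [re_sum]
      have : ∀ k, (T i k * dM U k j).re =
          (1 / 2 : ℝ) • (v k * (v k).d) + (1 / 2 : ℝ) • (w k * (w k).d) := by
        intro k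
        rw [Cx.mul_re]
        change (1 / 2 : ℝ) • v k * (v k).d - (1 / 2 : ℝ) • w k * (-w k).d = _
        rw [Form.d_neg, mul_neg, sub_neg_eq_add, smul_mul_assoc, smul_mul_assoc]
      simp only [this]
      rw [Finset.sum_add_distrib, ← Finset.smul_sum, ← Finset.smul_sum, vdv, wdw, smul_zero,
        add_zero]
    · rw [im_sum]
      have : ∀ k, (T i k * dM U k j).im =
          -((1 / 2 : ℝ) • (v k * (w k).d)) + (1 / 2 : ℝ) • (w k * (v k).d) := by
        intro k
        rw [Cx.mul_im]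
        change (1 / 2 : ℝ) • v k * (-w k).d + (1 / 2 : ℝ) • w k * (v k).d = _
        rw [Form.d_neg, mul_neg, smul_mul_assoc, smul_mul_assoc]
      simp only [this]
      rw [Finset.sum_add_distrib, Finset.sum_neg_distrib, ← Finset.smul_sum, ← Finset.smul_sum,
        vdw, smul_neg, neg_neg, ← add_smul]
      norm_num
      rfl
  rw [← hUT, ch_one_vec evU evT hTU, hθ, trace, Fintype.sum_unique]
  ext1
  · exact Form.d_zero
  · rfl

/-- the normalised form: `s_1(L) = -dν / 2π` -/
theorem sC_line {V Wv : X → n → ℝ} (hV : ∀ i, SmF D (fun x => V x i))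
    (hW : ∀ i, SmF D (fun x => Wv x i)) (h1 : ∀ x, ∑ i, V x i * V x i = 1)
    (h2 : ∀ x, ∑ i, Wv x i * Wv x i = 1) (h3 : ∀ x, ∑ i, Wv x i * V x i = 0)
    {p : X → Matrix n n ℂ} (hp : SmM D p) (h : ∀ x i j, p x i j =
      (1 / 2 : ℂ) * ((V x i - Complex.I * Wv x i) * (V x j + Complex.I * Wv x j))) :
    sC 1 (cM p hp) = Cx.of (-(1 / (2 * Real.pi)) • (conn hV hW).d) := by
  have h4 : (Complex.I / (2 * Real.pi) : ℂ) = ((1 / (2 * Real.pi) : ℝ) : ℂ) * Complex.I := by
    push_cast
    ring
  rw [sC, ch_line hV hW h1 h2 h3 hp h, nrm, pow_one, h4]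
  ext1
  · rw [Cx.smul_re, Cx.of_re, Complex.re_ofReal_mul, Complex.im_ofReal_mul, Complex.I_re,
      Complex.I_im, mul_zero, zero_smul, zero_sub, mul_one, neg_smul]
  · rw [Cx.smul_im, Cx.of_im, Complex.re_ofReal_mul, Complex.im_ofReal_mul, Complex.I_re,
      Complex.I_im, mul_zero, zero_smul, zero_add, mul_one, smul_zero]

end Fun

end Vale.Agent.P231.ChW
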