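import Mathlib

/-!
# P231, stage 2, block X1 (part 1): Chern character forms of idempotent matrices over a graded
commutative differential algebra (pure algebra)
-/

set_option linter.unusedSectionVars false
set_option linter.unusedVariables false

open Matrix

namespace Vale.Agent.P231.ChW

/-- a graded commutative differential algebra, seen through its grade involution -/
class GDA (A : Type*) [Ring A] where
  /-- the differential -/
  d : A →+ A
  /-- the grade involution -/
  sg : A →+* A
  sg_sg : ∀ a, sg (sg a) = a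
  d_mul : ∀ a b, d (a * b) = d a * b + sg a * d b
  d_sg : ∀ a, d (sg a) = -sg (d a)
  d_d : ∀ a, d (d a) = 0
  even : ∀ a b, sg a = a → a * b = b * a
  odd : ∀ a b, sg a = -a → a * b = sg b * a

section

variable {A : Type*} [Ring A] [GDA A]
variable {l m n o : Type*} [Fintype l] [Fintype m] [Fintype n] [Fintype o]

/-- entrywise differential -/
def dM (M : Matrix m n A) : Matrix m n A := M.map GDA.d

/-- entrywise grade involution -/
def sM (M : Matrix m n A) : Matrix m n A := M.map GDA.sg

@[simp] theorem dM_apply (M : Matrix m n A) (i : m) (j : n) : dM M i j = GDA.d (M i j) := rfl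
@[simp] theorem sM_apply (M : Matrix m n A) (i : m) (j : n) : sM M i j = GDA.sg (M i j) := rfl

/-- even entries -/
def Ev (M : Matrix m n A) : Prop := sM M = M

/-- odd entries -/
def Od (M : Matrix m n A) : Prop := sM M = -M

theorem dM_add (M N : Matrix m n A) : dM (M + N) = dM M + dM N := by
  ext i j; simp

theorem dM_sub (M N : Matrix m n A) : dM (M - N) = dM M - dM N := by
  ext i j; simp

theorem dM_neg (M : Matrix m n A) : dM (-M) = -dM M := by
  ext i j; simp

@[simp] theorem dM_zero : dM (0 : Matrix m n A) = 0 := by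
  ext i j; simp

theorem d_one : GDA.d (1 : A) = 0 := by
  have h := GDA.d_mul (1 : A) 1
  simp only [mul_one, one_mul, map_one] at h
  exact left_eq_add.1 h

@[simp] theorem dM_one [DecidableEq n] : dM (1 : Matrix n n A) = 0 := by
  ext i j
  rw [dM_apply, Matrix.one_apply, Matrix.zero_apply]
  split_ifs
  · exact d_one
  · exact map_zero _

@[simp] theorem dM_dM (M : Matrix m n A) : dM (dM M) = 0 := by
  ext i j; simp [GDA.d_d]

theorem dM_mul (M : Matrix l m A) (N : Matrix m n A) :
    dM (M * N) = dM M * N + sM M * dM N := by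
  ext i j
  simp only [dM_apply, Matrix.mul_apply, Matrix.add_apply, map_sum, GDA.d_mul, sM_apply]
  rw [Finset.sum_add_distrib]

theorem sM_mul (M : Matrix l m A) (N : Matrix m n A) : sM (M * N) = sM M * sM N := by
  ext i j
  simp [Matrix.mul_apply]

theorem sM_add (M N : Matrix m n A) : sM (M + N) = sM M + sM N := by
  ext i j; simp

theorem sM_sub (M N : Matrix m n A) : sM (M - N) = sM M - sM N := by
  ext i j; simp

theorem sM_neg (M : Matrix m n A) : sM (-M) = -sM M := by
  ext i j; simp

theorem sM_dM (M : Matrix m n A) : sM (dM M) = -dM (sM M) := by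
  ext i j; simp [GDA.d_sg]

namespace Ev

theorem zero : Ev (0 : Matrix m n A) := by
  unfold Ev; ext i j; simp

theorem one [DecidableEq n] : Ev (1 : Matrix n n A) := by
  unfold Ev
  ext i j
  rw [sM_apply, Matrix.one_apply]
  split_ifs <;> simp

theorem add {M N : Matrix m n A} (hM : Ev M) (hN : Ev N) : Ev (M + N) := by
  unfold Ev at *; rw [sM_add, hM, hN]

theorem sub {M N : Matrix m n A} (hM : Ev M) (hN : Ev N) : Ev (M - N) := by
  unfold Ev at *; rw [sM_sub, hM, hN]

theorem neg {M : Matrix m n A} (hM : Ev M) : Ev (-M) := by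
  unfold Ev at *; rw [sM_neg, hM]

theorem mul {M : Matrix l m A} {N : Matrix m n A} (hM : Ev M) (hN : Ev N) : Ev (M * N) := by
  unfold Ev at *; rw [sM_mul, hM, hN]

theorem pow [DecidableEq n] {M : Matrix n n A} (hM : Ev M) (k : ℕ) : Ev (M ^ k) := by
  induction k with
  | zero => rw [pow_zero]; exact one
  | succ k ih => rw [pow_succ]; exact ih.mul hM

theorem dM {M : Matrix m n A} (hM : Ev M) : Od (dM M) := by
  unfold Od; rw [sM_dM, hM]

theorem apply {M : Matrix m n A} (hM : Ev M) (i : m) (j : n) : GDA.sg (M i j) = M i j := by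
  have := congrFun (congrFun hM i) j
  rwa [sM_apply] at this

theorem comm {M : Matrix m n A} (hM : Ev M) (i : m) (j : n) (a : A) : M i j * a = a * M i j :=
  GDA.even _ _ (hM.apply i j)

theorem trace_comm {M : Matrix m n A} (hM : Ev M) (N : Matrix n m A) :
    trace (M * N) = trace (N * M) := by
  simp only [trace, diag, Matrix.mul_apply]
  rw [Finset.sum_comm]
  exact Finset.sum_congr rfl fun i _ => Finset.sum_congr rfl fun j _ => hM.comm _ _ _

end Ev

theorem Od.mul_od {M : Matrix l m A} {N : Matrix m n A} (hM : Od M) (hN : Od N) :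
    Ev (M * N) := by
  unfold Ev Od at *; rw [sM_mul, hM, hN, Matrix.neg_mul, Matrix.mul_neg, neg_neg]

theorem Od.mul_ev {M : Matrix l m A} {N : Matrix m n A} (hM : Od M) (hN : Ev N) :
    Od (M * N) := by
  unfold Ev Od at *; rw [sM_mul, hM, hN, Matrix.neg_mul]

theorem Ev.mul_od {M : Matrix l m A} {N : Matrix m n A} (hM : Ev M) (hN : Od N) :
    Od (M * N) := by
  unfold Ev Od at *; rw [sM_mul, hM, hN, Matrix.mul_neg]

theorem Od.apply {M : Matrix m n A} (hM : Od M) (i : m) (j : n) :
    GDA.sg (M i j) = -M i j := by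
  have := congrFun (congrFun hM i) j
  rwa [sM_apply, Matrix.neg_apply] at this

theorem Od.anticomm {M : Matrix l m A} {N : Matrix n o A} (hM : Od M) (hN : Od N) (i j i' j') :
    M i j * N i' j' = -(N i' j' * M i j) := by
  rw [GDA.odd _ _ (hM.apply i j), hN.apply, neg_mul]

variable [DecidableEq n] [DecidableEq m]

/-! ### idempotents -/

/-- an idempotent matrix with even entries -/
structure Idem (P : Matrix n n A) : Prop where
  ev : Ev P
  idem : P * P = P

/-- the square of the differential of a matrix -/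
def dd (P : Matrix n n A) : Matrix n n A := dM P * dM P

/-- the Chern character form of degree `2 k` (not normalised) -/
def ch (k : ℕ) (P : Matrix n n A) : A := trace (P * dd P ^ k)

namespace Idem

variable {P : Matrix n n A}

theorem d_rel (h : Idem P) : dM P * P + P * dM P = dM P := by
  have h1 := congrArg dM h.idem
  rwa [dM_mul, h.ev] at h1

theorem mul_d (h : Idem P) : P * dM P = dM P - dM P * P := by
  rw [eq_sub_iff_add_eq, add_comm]; exact h.d_rel

theorem mul_d_mul (h : Idem P) : P * dM P * P = 0 := by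
  rw [h.mul_d, sub_mul, mul_assoc, h.idem, sub_self]

theorem ev_dd (h : Idem P) : Ev (dd P) := h.ev.dM.mul_od h.ev.dM

theorem dM_dd (h : Idem P) : dM (dd P) = 0 := by
  rw [dd, dM_mul, dM_dM, Matrix.zero_mul, Matrix.mul_zero, add_zero]

theorem dM_dd_pow (h : Idem P) (k : ℕ) : dM (dd P ^ k) = 0 := by
  induction k with
  | zero => rw [pow_zero, dM_one]
  | succ k ih => rw [pow_succ, dM_mul, ih, h.dM_dd, Matrix.zero_mul, Matrix.mul_zero, add_zero]

theorem comm_dd (h : Idem P) : P * dd P = dd P * P := by
  rw [dd, ← mul_assoc, h.mul_d, sub_mul, mul_assoc (dM P) P, h.mul_d, mul_sub, ← mul_assoc,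
    sub_sub_cancel]

theorem comm_dd_pow (h : Idem P) (k : ℕ) : P * dd P ^ k = dd P ^ k * P :=
  (Commute.pow_right (show Commute P (dd P) from h.comm_dd) k)

theorem trace_aux (h : Idem P) (k : ℕ) : trace (P * dM P * dd P ^ k) = 0 := by
  have h1 : trace (P * (P * dM P * dd P ^ k)) = trace (P * dM P * dd P ^ k * P) :=
    h.ev.trace_comm _
  rw [mul_assoc (P * dM P), ← h.comm_dd_pow, ← mul_assoc (P * dM P) P, h.mul_d_mul, zero_mul,
    trace_zero, ← mul_assoc, ← mul_assoc, h.idem] at h1
  exact h1

theorem trace_aux' (h : Idem P) (k : ℕ) : trace (dM P * dd P ^ k) = 0 := by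
  calc trace (dM P * dd P ^ k) = trace ((dM P * P + P * dM P) * dd P ^ k) := by rw [h.d_rel]
    _ = trace (dM P * dd P ^ k * P) + trace (P * dM P * dd P ^ k) := by
      rw [add_mul, trace_add, mul_assoc (dM P) P, h.comm_dd_pow, ← mul_assoc]
    _ = 0 := by
      rw [h.trace_aux, add_zero, ← h.ev.trace_comm, ← mul_assoc, h.trace_aux]

/-- Chern character forms are closed -/
theorem d_ch (h : Idem P) (k : ℕ) : GDA.d (ch k P) = 0 := by
  have h1 : GDA.d (ch k P) = trace (dM (P * dd P ^ k)) := by
    rw [ch, trace, trace, map_sum]; rfl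
  rw [h1, dM_mul, h.dM_dd_pow, Matrix.mul_zero, add_zero, h.trace_aux']

end Idem

/-! ### block sums -/

theorem dM_fromBlocks (M : Matrix n n A) (N : Matrix n m A) (M' : Matrix m n A)
    (N' : Matrix m m A) :
    dM (fromBlocks M N M' N') = fromBlocks (dM M) (dM N) (dM M') (dM N') := by
  ext i j
  rcases i with i | i <;> rcases j with j | j <;> rfl

theorem sM_fromBlocks (M : Matrix n n A) (N : Matrix n m A) (M' : Matrix m n A)
    (N' : Matrix m m A) :
    sM (fromBlocks M N M' N') = fromBlocks (sM M) (sM N) (sM M') (sM N') := by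
  ext i j
  rcases i with i | i <;> rcases j with j | j <;> rfl

theorem Ev.fromBlocks {M : Matrix n n A} {N : Matrix n m A} {M' : Matrix m n A}
    {N' : Matrix m m A} (h1 : Ev M) (h2 : Ev N) (h3 : Ev M') (h4 : Ev N') :
    Ev (fromBlocks M N M' N') := by
  unfold Ev at *
  rw [sM_fromBlocks, h1, h2, h3, h4]

theorem pow_fromBlocks (M : Matrix n n A) (N : Matrix m m A) (k : ℕ) :
    fromBlocks M 0 0 N ^ k = fromBlocks (M ^ k) 0 0 (N ^ k) := by
  induction k with
  | zero => simp only [pow_zero, fromBlocks_one]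
  | succ k ih =>
    rw [pow_succ, ih, fromBlocks_multiply, pow_succ, pow_succ]
    simp only [Matrix.mul_zero, Matrix.zero_mul, add_zero, zero_add]

theorem trace_fromBlocks' (M : Matrix n n A) (N : Matrix n m A) (M' : Matrix m n A)
    (N' : Matrix m m A) : trace (fromBlocks M N M' N') = trace M + trace N' := by
  simp [trace, Fintype.sum_sum_type]

/-- additivity for block sums -/
theorem ch_fromBlocks (P : Matrix n n A) (Q : Matrix m m A) (k : ℕ) :
    ch k (fromBlocks P 0 0 Q) = ch k P + ch k Q := by
  rw [ch, dd, dM_fromBlocks, dM_zero, dM_zero, fromBlocks_multiply]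
  simp only [Matrix.mul_zero, Matrix.zero_mul, add_zero, zero_add]
  rw [pow_fromBlocks, fromBlocks_multiply]
  simp only [Matrix.mul_zero, Matrix.zero_mul, add_zero, zero_add]
  rw [trace_fromBlocks']
  rfl

@[simp] theorem ch_zero (k : ℕ) : ch k (0 : Matrix n n A) = 0 := by
  rw [ch, Matrix.zero_mul, trace_zero]

/-! ### transposition -/

theorem Ev.transpose_mul {M : Matrix l m A} (hM : Ev M) (N : Matrix m n A) :
    (M * N)ᵀ = Nᵀ * Mᵀ := by
  ext i j
  simp only [Matrix.transpose_apply, Matrix.mul_apply]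
  exact Finset.sum_congr rfl fun k _ => hM.comm _ _ _

theorem Od.transpose_mul {M : Matrix l m A} {N : Matrix m n A} (hM : Od M) (hN : Od N) :
    (M * N)ᵀ = -(Nᵀ * Mᵀ) := by
  ext i j
  simp only [Matrix.transpose_apply, Matrix.mul_apply, Matrix.neg_apply]
  rw [← Finset.sum_neg_distrib]
  exact Finset.sum_congr rfl fun k _ => hM.anticomm hN _ _ _ _

theorem dM_transpose (M : Matrix m n A) : dM Mᵀ = (dM M)ᵀ := rfl

theorem sM_transpose (M : Matrix m n A) : sM Mᵀ = (sM M)ᵀ := rfl

theorem Ev.transpose {M : Matrix m n A} (hM : Ev M) : Ev Mᵀ := by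
  unfold Ev at *; rw [sM_transpose, hM]

theorem Idem.transpose {P : Matrix n n A} (h : Idem P) : Idem Pᵀ :=
  ⟨h.ev.transpose, by rw [← h.ev.transpose_mul, h.idem]⟩

theorem dd_transpose {P : Matrix n n A} (h : Ev P) : dd Pᵀ = -(dd P)ᵀ := by
  rw [dd, dd, h.dM.transpose_mul h.dM, dM_transpose, neg_neg]

theorem Ev.transpose_pow {M : Matrix n n A} (hM : Ev M) (k : ℕ) : (M ^ k)ᵀ = Mᵀ ^ k := by
  induction k with
  | zero => simp
  | succ k ih => rw [pow_succ, (hM.pow k).transpose_mul, ih, ← pow_succ']

theorem ch_transpose {P : Matrix n n A} (h : Idem P) (k : ℕ) :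
    ch k Pᵀ = (-1) ^ k * ch k P := by
  rw [ch, dd_transpose h.ev, neg_pow, ← h.ev_dd.transpose_pow, ← mul_assoc]
  have h1 : Pᵀ * (-1 : Matrix n n A) ^ k = (-1 : Matrix n n A) ^ k * Pᵀ :=
    ((Commute.neg_one_right Pᵀ).pow_right k).eq
  rw [h1, mul_assoc, ← (h.ev_dd.pow k).transpose_mul, ← h.comm_dd_pow]
  have h2 : ∀ M : Matrix n n A, trace ((-1 : Matrix n n A) ^ k * M) = (-1) ^ k * trace M := by
    intro M
    rcases Nat.even_or_odd k with hk | hk
    · rw [hk.neg_one_pow, hk.neg_one_pow, one_mul, one_mul]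
    · rw [hk.neg_one_pow, hk.neg_one_pow, neg_one_mul, neg_one_mul, trace_neg]
  rw [h2, trace_transpose]
  rfl

/-! ### curvature -/

/-- the curvature of an idempotent -/
def om (P : Matrix n n A) : Matrix n n A := P * dd P

theorem Idem.ev_om {P : Matrix n n A} (h : Idem P) : Ev (om P) := h.ev.mul h.ev_dd

theorem Idem.mul_om {P : Matrix n n A} (h : Idem P) : P * om P = om P := by
  rw [om, ← mul_assoc, h.idem]

theorem Idem.om_mul {P : Matrix n n A} (h : Idem P) : om P * P = om P := by
  rw [om, mul_assoc, ← h.comm_dd, ← mul_assoc, h.idem]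

theorem Idem.mul_dd_pow {P : Matrix n n A} (h : Idem P) (k : ℕ) : P * dd P ^ k = P * om P ^ k := by
  induction k with
  | zero => simp
  | succ k ih => rw [pow_succ, ← mul_assoc, ih, pow_succ, ← mul_assoc,
      show P * om P ^ k * om P = P * om P ^ k * P * dd P by rw [om, ← mul_assoc]]
                 have h1 : P * om P ^ k * P = P * om P ^ k := by
                   have h2 : Commute P (om P) := by
                     change P * om P = om P * P
                     rw [h.mul_om, h.om_mul]
                   rw [mul_assoc, ← (h2.pow_right k).eq, ← mul_assoc, h.idem]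
                 rw [h1]

theorem Idem.ch_eq {P : Matrix n n A} (h : Idem P) (k : ℕ) : ch k P = trace (P * om P ^ k) := by
  rw [ch, h.mul_dd_pow]

theorem Idem.mul_om_pow {P : Matrix n n A} (h : Idem P) (k : ℕ) :
    P * om P ^ (k + 1) = om P ^ (k + 1) := by
  rw [pow_succ', ← mul_assoc, h.mul_om]

theorem Idem.ch_succ {P : Matrix n n A} (h : Idem P) (k : ℕ) :
    ch (k + 1) P = trace (om P ^ (k + 1)) := by
  rw [h.ch_eq, h.mul_om_pow]

end

end Vale.Agent.P231.ChW
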