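import Mathlib

/-!
# P231, stage 2, block X2: Newton's identities and the vanishing above the rank

For a matrix `M` over a commutative ring the coefficients `e j` of `det (1 + X M)` satisfy
`(j + 1) e (j + 1) = ∑_{i ≤ j} (-1)^i tr (M^(i+1)) e (j - i)`. Hence, if the traces are those of a
matrix supported on a constant idempotent of rank `r`, the solution of this recursion vanishes
for `j > r`.
-/

open Matrix Finset

namespace Vale.Agent.P231.ChW

/-! ### the derivative of a determinant -/

section Jacobi

variable {S : Type*} [CommRing S] {n : Type*} [Fintype n] [DecidableEq n]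

/-- a derivation as a homomorphism to the dual numbers -/
def toDual (δ : S →+ S) (hδ : ∀ a b, δ (a * b) = δ a * b + a * δ b) : S →+* DualNumber S where
  toFun a := TrivSqZeroExt.inl a + TrivSqZeroExt.inr (δ a)
  map_one' := by
    have h := hδ 1 1
    rw [mul_one, mul_one, one_mul] at h
    rw [left_eq_add.1 h, TrivSqZeroExt.inr_zero, add_zero, TrivSqZeroExt.inl_one]
  map_mul' a b := by
    ext
    · simp
    · simp [hδ, mul_comm, add_comm]
  map_zero' := by simp
  map_add' a b := by
    ext <;> simp

/-- Jacobi's formula -/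
theorem det_derivation (δ : S →+ S) (hδ : ∀ a b, δ (a * b) = δ a * b + a * δ b)
    {G H : Matrix n n S} (hGH : G * H = 1) : δ (det G) = det G * trace (H * G.map δ) := by
  let θ := toDual δ hδ
  let ι : S →+* DualNumber S := TrivSqZeroExt.inlHom S S
  have h1 : θ.mapMatrix G = ι.mapMatrix G *
      (1 + (DualNumber.eps : DualNumber S) • ι.mapMatrix (H * G.map δ)) := by
    have h2 : ι.mapMatrix G * (1 + (DualNumber.eps : DualNumber S) • ι.mapMatrix (H * G.map δ)) =
        ι.mapMatrix G + (DualNumber.eps : DualNumber S) • ι.mapMatrix (G.map δ) := by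
      rw [Matrix.mul_add, Matrix.mul_one, Matrix.mul_smul, ← map_mul, ← Matrix.mul_assoc, hGH,
        Matrix.one_mul]
    rw [h2]
    refine Matrix.ext fun i j => ?_
    change TrivSqZeroExt.inl (G i j) + TrivSqZeroExt.inr (δ (G i j)) =
      TrivSqZeroExt.inl (G i j) + DualNumber.eps * TrivSqZeroExt.inl (δ (G i j))
    ext <;> simp
  have h3 : θ (det G) = ι (det G) *
      (1 + ι (trace (H * G.map δ)) * DualNumber.eps) := by
    rw [RingHom.map_det, h1, det_mul, ← RingHom.map_det, det_one_add_smul, DualNumber.eps_pow_two,
      mul_zero, add_zero]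
    congr 3
    exact (AddMonoidHom.map_trace ι (H * G.map δ)).symm
  have h4 := congrArg TrivSqZeroExt.snd h3
  simpa [θ, ι, toDual] using h4

end Jacobi

/-! ### Newton's identities -/

section Newton

variable {A : Type*} [CommRing A] {n : Type*} [Fintype n] [DecidableEq n]

/-- the coefficients of `det (1 + X M)` -/
noncomputable def esc (M : Matrix n n A) (j : ℕ) : A :=
  (det (1 + (Polynomial.X : Polynomial A) • M.map Polynomial.C)).coeff j

theorem esc_eq_zero (M : Matrix n n A) {j : ℕ} (hj : Fintype.card n < j) : esc M j = 0 := by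
  refine Polynomial.coeff_eq_zero_of_natDegree_lt (lt_of_le_of_lt ?_ hj)
  have h := Polynomial.natDegree_det_X_add_C_le M (1 : Matrix n n A)
  rw [Matrix.map_one _ (map_zero _) (map_one _), add_comm] at h
  exact h

theorem esc_zero (M : Matrix n n A) : esc M 0 = 1 := by
  rw [esc, Polynomial.coeff_zero_eq_eval_zero, eval_det_add_X_smul]
  simp

/-- the inverse of `1 + X M`, as a matrix of power series -/
noncomputable def gser (M : Matrix n n A) : Matrix n n (PowerSeries A) :=
  Matrix.of fun i j => PowerSeries.mk fun l => (-1) ^ l * (M ^ l) i j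

theorem coeff_sum' {ι : Type*} (s : Finset ι) (f : ι → PowerSeries A) (l : ℕ) :
    PowerSeries.coeff l (∑ i ∈ s, f i) = ∑ i ∈ s, PowerSeries.coeff l (f i) :=
  map_sum _ _ _

theorem gser_mul (M : Matrix n n A) :
    (1 + (PowerSeries.X : PowerSeries A) • M.map (PowerSeries.C (R := A))) * gser M = 1 := by
  refine Matrix.ext fun i j => PowerSeries.ext fun l => ?_
  rw [Matrix.add_mul, Matrix.one_mul, Matrix.smul_mul, Matrix.add_apply, Matrix.smul_apply,
    smul_eq_mul, map_add]
  cases l with
  | zero =>
    rw [PowerSeries.coeff_zero_X_mul, gser, Matrix.of_apply, PowerSeries.coeff_mk]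
    by_cases h : i = j
    · subst h; simp
    · simp [Matrix.one_apply_ne h]
  | succ l =>
    rw [PowerSeries.coeff_succ_X_mul, Matrix.mul_apply, coeff_sum']
    have h1 : PowerSeries.coeff (l + 1) (gser M i j) = (-1) ^ (l + 1) * (M ^ (l + 1)) i j := by
      rw [gser, Matrix.of_apply, PowerSeries.coeff_mk]
    have h2 : ∀ x, PowerSeries.coeff l ((M.map (PowerSeries.C (R := A))) i x * gser M x j) =
        (-1) ^ l * (M i x * (M ^ l) x j) := fun x => by
      rw [Matrix.map_apply, PowerSeries.coeff_C_mul, gser, Matrix.of_apply, PowerSeries.coeff_mk]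
      ring
    simp only [h2]
    rw [h1, ← Finset.mul_sum, ← Matrix.mul_apply, ← pow_succ', pow_succ]
    have h3 : PowerSeries.coeff (l + 1) ((1 : Matrix n n (PowerSeries A)) i j) = 0 := by
      rw [Matrix.one_apply]
      split_ifs
      · rw [PowerSeries.coeff_one, if_neg (by omega)]
      · exact map_zero _
    rw [h3]
    ring

theorem coeff_trace_gser (M : Matrix n n A) (l : ℕ) :
    PowerSeries.coeff l (trace (gser M * M.map (PowerSeries.C (R := A)))) =
      (-1) ^ l * trace (M ^ (l + 1)) := by
  simp only [trace, diag_apply, Matrix.mul_apply]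
  rw [coeff_sum', Finset.mul_sum]
  refine Finset.sum_congr rfl fun i _ => ?_
  rw [coeff_sum', pow_succ, Matrix.mul_apply, Finset.mul_sum]
  refine Finset.sum_congr rfl fun j _ => ?_
  rw [Matrix.map_apply, PowerSeries.coeff_mul_C, gser, Matrix.of_apply, PowerSeries.coeff_mk]
  ring

/-- Newton's identities -/
theorem newton (M : Matrix n n A) (j : ℕ) : ((j : A) + 1) * esc M (j + 1) =
    ∑ i ∈ range (j + 1), (-1) ^ i * trace (M ^ (i + 1)) * esc M (j - i) := by
  let G : Matrix n n (PowerSeries A) := 1 + (PowerSeries.X : PowerSeries A) •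
    M.map (PowerSeries.C (R := A))
  let f : PowerSeries A := ((det (1 + (Polynomial.X : Polynomial A) •
    M.map Polynomial.C) : Polynomial A) : PowerSeries A)
  have hf : f = det G := by
    change Polynomial.coeToPowerSeries.ringHom (det (1 + (Polynomial.X : Polynomial A) •
      M.map Polynomial.C)) = det G
    rw [RingHom.map_det]
    congr 1
    refine Matrix.ext fun i j => ?_
    simp only [RingHom.mapMatrix_apply, Matrix.map_apply, Matrix.add_apply, Matrix.smul_apply,
      smul_eq_mul, map_add, map_mul, Polynomial.coeToPowerSeries.ringHom_apply,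
      Polynomial.coe_X, Polynomial.coe_C, G]
    congr 1
    by_cases h : i = j
    · subst h; simp
    · simp [Matrix.one_apply_ne h]
  have hfc : ∀ l, PowerSeries.coeff l f = esc M l := fun l => Polynomial.coeff_coe _ _
  let δ : PowerSeries A →+ PowerSeries A := (PowerSeries.derivative A).toLinearMap.toAddMonoidHom
  have hδ : ∀ a b, δ (a * b) = δ a * b + a * δ b := fun a b => by
    have h := (PowerSeries.derivative A).leibniz a b
    change PowerSeries.derivative A (a * b) = _
    rw [h, smul_eq_mul, smul_eq_mul]
    change a * δ b + b * δ a = _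
    ring
  have hG : G.map δ = M.map (PowerSeries.C (R := A)) := by
    refine Matrix.ext fun i j => ?_
    have hGij : G i j = (1 : Matrix n n (PowerSeries A)) i j +
      PowerSeries.X * PowerSeries.C (M i j) := rfl
    rw [Matrix.map_apply, Matrix.map_apply, hGij, map_add, hδ]
    have h1 : δ PowerSeries.X = 1 := PowerSeries.derivative_X
    have h2 : δ (PowerSeries.C (M i j)) = 0 := PowerSeries.derivative_C
    have h3 : δ ((1 : Matrix n n (PowerSeries A)) i j) = 0 := by
      rw [Matrix.one_apply]
      split_ifs
      · exact PowerSeries.derivative_one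
      · exact map_zero _
    rw [h1, h2, h3, one_mul, mul_zero, zero_add, add_zero]
  have h1 := det_derivation δ hδ (gser_mul M)
  change δ (det G) = det G * trace (gser M * G.map δ) at h1
  rw [hG, ← hf] at h1
  have h2 := congrArg (PowerSeries.coeff j) h1
  have h3 : PowerSeries.coeff j (δ f) = esc M (j + 1) * ((j : A) + 1) := by
    rw [← hfc]
    exact PowerSeries.coeff_derivative f j
  rw [h3, mul_comm f, PowerSeries.coeff_mul, Finset.Nat.sum_antidiagonal_eq_sum_range_succ_mk] at h2
  rw [mul_comm, h2]
  refine Finset.sum_congr rfl fun i _ => ?_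
  rw [coeff_trace_gser, hfc]

end Newton

/-! ### uniqueness of the solution of the recursion -/

section Unique

variable {K R : Type*} [Field K] [CharZero K] [Ring R] [Algebra K R]

/-- the recursion of Newton's identities, in an algebra over a field of characteristic zero -/
def NewtonRec (K : Type*) {R : Type*} [Field K] [Ring R] [Algebra K R] (s e : ℕ → R) : Prop :=
  e 0 = 1 ∧ ∀ j : ℕ, ((j : K) + 1) • e (j + 1) =
    ∑ i ∈ range (j + 1), (-1 : K) ^ i • (s (i + 1) * e (j - i))

theorem NewtonRec.unique {s e e' : ℕ → R} (h : NewtonRec K s e) (h' : NewtonRec K s e') (j : ℕ) :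
    e j = e' j := by
  induction j using Nat.strong_induction_on with
  | _ j ih =>
    cases j with
    | zero => rw [h.1, h'.1]
    | succ j =>
      have h1 := h.2 j
      have h2 : ∑ i ∈ range (j + 1), (-1 : K) ^ i • (s (i + 1) * e (j - i)) =
          ∑ i ∈ range (j + 1), (-1 : K) ^ i • (s (i + 1) * e' (j - i)) :=
        Finset.sum_congr rfl fun i _ => by rw [ih (j - i) (by omega)]
      rw [h2, ← h'.2 j] at h1
      have h3 : ((j : K) + 1) ≠ 0 := by exact_mod_cast Nat.succ_ne_zero j
      exact smul_right_injective R h3 h1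

end Unique

/-! ### the rank -/

section Rank

variable {K : Type*} [Field K] {n : Type*} [Fintype n] [DecidableEq n]

/-- rank factorisation of an idempotent matrix -/
theorem exists_factor {P : Matrix n n K} (hP : P * P = P) :
    ∃ (a : Matrix n (Fin P.rank) K) (b : Matrix (Fin P.rank) n K), a * b = P ∧ b * a = 1 := by
  classical
  let f : (n → K) →ₗ[K] (n → K) := P.mulVecLin
  have hf : Module.finrank K (LinearMap.range f) = P.rank := rfl
  let v : Module.Basis (Fin P.rank) K (LinearMap.range f) :=
    Module.finBasisOfFinrankEq K (LinearMap.range f) hf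
  have hid : ∀ x, x ∈ LinearMap.range f → f x = x := by
    rintro _ ⟨y, rfl⟩
    change P *ᵥ (P *ᵥ y) = P *ᵥ y
    rw [Matrix.mulVec_mulVec, hP]
  let a : Matrix n (Fin P.rank) K := Matrix.of fun i j => (v j : n → K) i
  let b : Matrix (Fin P.rank) n K := Matrix.of fun j i =>
    v.repr ⟨f (Pi.single i 1), LinearMap.mem_range_self f _⟩ j
  refine ⟨a, b, Matrix.ext fun i l => ?_, Matrix.ext fun j l => ?_⟩
  · rw [Matrix.mul_apply]
    have h1 := v.sum_repr ⟨f (Pi.single l 1), LinearMap.mem_range_self f _⟩
    have h2 := congrFun (congrArg Subtype.val h1) i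
    rw [AddSubmonoidClass.coe_finsetSum, Finset.sum_apply] at h2
    have h3 : f (Pi.single l 1) i = P i l := by
      change (P *ᵥ Pi.single l 1) i = P i l
      simp
    change _ = f (Pi.single l 1) i at h2
    rw [h3] at h2
    refine Eq.trans ?_ h2
    refine Finset.sum_congr rfl fun j _ => ?_
    change (v j : n → K) i * v.repr _ j = v.repr _ j * (v j : n → K) i
    rw [mul_comm]
  · rw [Matrix.mul_apply]
    have h1 : f (v l : n → K) = v l := hid _ (v l).2
    have h2 : (v l : n → K) = ∑ i, (v l : n → K) i • Pi.single i (1 : K) := by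
      funext m
      simp [Finset.sum_apply, Pi.single_apply]
    have h3 : (⟨f (v l : n → K), LinearMap.mem_range_self f _⟩ : LinearMap.range f) = v l :=
      Subtype.ext h1
    have h4 : (⟨f (v l : n → K), LinearMap.mem_range_self f _⟩ : LinearMap.range f) =
        ∑ i, (v l : n → K) i • (⟨f (Pi.single i 1), LinearMap.mem_range_self f _⟩ :
          LinearMap.range f) := by
      refine Subtype.ext ?_
      rw [AddSubmonoidClass.coe_finsetSum]
      change f (v l : n → K) = _
      conv_lhs => rw [h2]
      rw [map_sum]
      refine Finset.sum_congr rfl fun i _ => ?_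
      rw [map_smul]
      rfl
    have h5 := congrArg (fun z => v.repr z j) (h4.symm.trans h3)
    simp only [map_sum, map_smul, Finsupp.coe_finsetSum, Finset.sum_apply, Finsupp.smul_apply,
      smul_eq_mul, Module.Basis.repr_self] at h5
    have h6 : (Finsupp.single l (1 : K)) j = (1 : Matrix (Fin P.rank) (Fin P.rank) K) j l := by
      rw [Finsupp.single_apply, Matrix.one_apply]
      by_cases h : l = j
      · rw [if_pos h, if_pos h.symm]
      · rw [if_neg h, if_neg (Ne.symm h)]
    rw [← h6, ← h5]
    refine Finset.sum_congr rfl fun i _ => ?_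
    change v.repr _ j * (v l : n → K) i = (v l : n → K) i * v.repr _ j
    rw [mul_comm]

variable {A : Type*} [CommRing A] [Algebra K A]

/-- compression of a matrix supported on a constant idempotent of rank `r` -/
theorem exists_compress {P : Matrix n n K} (hP : P * P = P) {M : Matrix n n A}
    (h1 : P.map (algebraMap K A) * M = M) (h2 : M * P.map (algebraMap K A) = M) :
    ∃ N : Matrix (Fin P.rank) (Fin P.rank) A, ∀ i : ℕ, trace (M ^ (i + 1)) = trace (N ^ (i + 1)) := by
  obtain ⟨a, b, hab, hba⟩ := exists_factor hP
  let a' := a.map (algebraMap K A)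
  let b' := b.map (algebraMap K A)
  have hab' : a' * b' = P.map (algebraMap K A) :=
    (Matrix.map_mul (f := algebraMap K A)).symm.trans
      (congrArg (fun Q : Matrix n n K => Q.map (algebraMap K A)) hab)
  have hba' : b' * a' = 1 := by
    have : b' * a' = (b * a).map (algebraMap K A) := (Matrix.map_mul (f := algebraMap K A)).symm
    rw [this, hba, Matrix.map_one _ (map_zero _) (map_one _)]
  have hM : M = a' * (b' * M * a') * b' := by
    have : a' * (b' * M * a') * b' = (a' * b') * M * (a' * b') := by
      simp only [Matrix.mul_assoc]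
    rw [this, hab', h1, h2]
  have hpow : ∀ i : ℕ, M ^ (i + 1) = a' * (b' * M * a') ^ (i + 1) * b' := by
    intro i
    induction i with
    | zero => rw [zero_add, pow_one, pow_one]; exact hM
    | succ i ih =>
      rw [pow_succ M (i + 1), ih]
      nth_rewrite 2 [hM]
      have : a' * (b' * M * a') ^ (i + 1) * b' * (a' * (b' * M * a') * b') =
          a' * ((b' * M * a') ^ (i + 1) * ((b' * a') * (b' * M * a'))) * b' := by
        simp only [Matrix.mul_assoc]
      rw [this, hba', Matrix.one_mul, ← pow_succ]
  refine ⟨b' * M * a', fun i => ?_⟩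
  rw [hpow, trace_mul_comm, ← Matrix.mul_assoc, hba', Matrix.one_mul]

theorem newton_rank_comm [CharZero K] {P : Matrix n n K} (hP : P * P = P) {M : Matrix n n A}
    (h1 : P.map (algebraMap K A) * M = M) (h2 : M * P.map (algebraMap K A) = M) {e : ℕ → A}
    (he : NewtonRec K (fun i => trace (M ^ i)) e) {j : ℕ} (hj : P.rank < j) : e j = 0 := by
  obtain ⟨N, hN⟩ := exists_compress hP h1 h2
  have h3 : NewtonRec K (fun i => trace (M ^ i)) (esc N) := by
    refine ⟨esc_zero N, fun j => ?_⟩
    have h4 := newton N j
    have h5 : ((j : K) + 1) • esc N (j + 1) = ((j : A) + 1) * esc N (j + 1) := by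
      rw [Algebra.smul_def, map_add, map_natCast, map_one]
    rw [h5, h4]
    refine Finset.sum_congr rfl fun i _ => ?_
    change (-1 : A) ^ i * trace (N ^ (i + 1)) * esc N (j - i) =
      (-1 : K) ^ i • (trace (M ^ (i + 1)) * esc N (j - i))
    rw [hN, Algebra.smul_def, map_pow, map_neg, map_one, mul_assoc]
  rw [he.unique h3 j]
  exact esc_eq_zero N (by rwa [Fintype.card_fin])

end Rank

/-! ### central entries in a noncommutative algebra -/

section Central

variable {K R : Type*} [Field K] [CharZero K] [Ring R] [Algebra K R] {n : Type*} [Fintype n]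
  [DecidableEq n]

/-- Newton's identities and the rank, for matrices with central entries -/
theorem newton_rank {P : Matrix n n K} (hP : P * P = P) {M : Matrix n n R}
    (hM : ∀ i j, M i j ∈ Subalgebra.center K R)
    (h1 : P.map (algebraMap K R) * M = M) (h2 : M * P.map (algebraMap K R) = M) {e : ℕ → R}
    (he : NewtonRec K (fun i => trace (M ^ i)) e) {j : ℕ} (hj : P.rank < j) : e j = 0 := by
  let Z := Subalgebra.center K R
  let ι : Z →+* R := Z.val.toRingHom
  have hι : Function.Injective ι := Subtype.val_injective
  let M' : Matrix n n Z := Matrix.of fun i j => ⟨M i j, hM i j⟩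
  have hMM : ι.mapMatrix M' = M := rfl
  have hPP : ι.mapMatrix (P.map (algebraMap K Z)) = P.map (algebraMap K R) := rfl
  have hinj : Function.Injective (ι.mapMatrix (m := n)) := fun A B h =>
    Matrix.ext fun i j => hι (congrFun (congrFun h i) j)
  have h1' : P.map (algebraMap K Z) * M' = M' := hinj (by rw [map_mul, hMM, hPP, h1])
  have h2' : M' * P.map (algebraMap K Z) = M' := hinj (by rw [map_mul, hMM, hPP, h2])
  obtain ⟨N, hN⟩ := exists_compress hP h1' h2'
  have h3 : NewtonRec K (fun i => trace (M ^ i)) (fun j => ι (esc N j)) := by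
    refine ⟨?_, fun j => ?_⟩
    · change ι (esc N 0) = 1
      rw [esc_zero, map_one]
    have h4 := congrArg ι (newton N j)
    have h5 : ((j : K) + 1) • ι (esc N (j + 1)) = ι (((j : Z) + 1) * esc N (j + 1)) := by
      rw [map_mul, map_add, map_natCast, map_one, Algebra.smul_def, map_add, map_natCast, map_one]
    rw [h5, h4, map_sum]
    refine Finset.sum_congr rfl fun i _ => ?_
    rw [← hN]
    have h6 : ι (trace (M' ^ (i + 1))) = trace (M ^ (i + 1)) := by
      rw [AddMonoidHom.map_trace ι (M' ^ (i + 1))]
      congr 1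
      exact map_pow ι.mapMatrix M' (i + 1)
    rw [map_mul, map_mul, h6, map_pow]
    change (-1 : R) ^ i * trace (M ^ (i + 1)) * ι (esc N (j - i)) =
      (-1 : K) ^ i • (trace (M ^ (i + 1)) * ι (esc N (j - i)))
    rw [Algebra.smul_def, map_pow, map_neg, map_one, mul_assoc]
  rw [he.unique h3 j, esc_eq_zero N (by rwa [Fintype.card_fin]), map_zero]

end Central

end Vale.Agent.P231.ChW
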