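import Vale.Agent.P231.ChW.Iso
import Vale.Agent.P231.H584.Flow

/-!
# P231, stage 2, block X1 (part 5): normalised real Chern character forms and their relations,
modulo differentials of basic odd forms
-/

set_option linter.unusedSectionVars false
set_option linter.unusedVariables false

open Matrix Set Filter Topology
open scoped ContDiff

namespace Vale.Agent.P231.ChW

open Fm W

variable {X Y : Type*} {D : Dif X} {D' : Dif Y}
variable {n m : Type*} [Fintype n] [DecidableEq n] [Fintype m] [DecidableEq m]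

/-- the normalisation constant -/
noncomputable def nrm (k : ℕ) : ℂ := (Complex.I / (2 * Real.pi)) ^ k

theorem nrm_add (j k : ℕ) : nrm (j + k) = nrm j * nrm k := pow_add _ _ _

theorem nrm_zero : nrm 0 = 1 := pow_zero _

theorem conj_nrm (k : ℕ) : (starRingEnd ℂ) (nrm k) = (-1) ^ k * nrm k := by
  rw [nrm, map_pow, map_div₀, Complex.conj_I, map_mul, Complex.conj_ofReal,
    Complex.conj_ofNat, ← mul_pow]
  congr 1
  ring

/-- the normalised complex Chern character form -/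
noncomputable def sC (k : ℕ) (P : Matrix n n (CF D)) : CF D := nrm k • ch k P

/-- the normalised real Chern character form -/
noncomputable def sF (k : ℕ) (P : Matrix n n (CF D)) : Form D := (sC k P).re

theorem mapA_smulC (c : ℂ) (w : CF D) : GDA.d (c • w) = c • GDA.d w := by
  have := Cx.mapf_smul (A := Form D) (B := Form D) Form.d Form.d_add Form.d_smul c w
  exact this

theorem sg_smulC (c : ℂ) (w : CF D) : GDA.sg (c • w) = c • GDA.sg w :=
  Cx.mapf_smul (A := Form D) (B := Form D) Form.sg Form.sg_add Form.sg_smul c w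

theorem pullC_smul (f : X → Y) (hf : D.Map D' f) (c : ℂ) (w : CF D') :
    pullC f hf (c • w) = c • pullC f hf w :=
  Cx.mapf_smul (A := Form D') (B := Form D) (Form.pull f hf)
    (fun a b => map_add (Form.pullA f hf) a b) (fun c a => map_smul (Form.pullA f hf) c a) c w

theorem sC_closed {P : Matrix n n (CF D)} (hP : Idem P) (k : ℕ) : GDA.d (sC k P) = 0 := by
  rw [sC, mapA_smulC, hP.d_ch, smul_zero]

theorem sC_even {P : Matrix n n (CF D)} (hP : Idem P) (k : ℕ) : GDA.sg (sC k P) = sC k P := by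
  rw [sC, sg_smulC, ev_ch hP]

theorem sF_closed {P : Matrix n n (CF D)} (hP : Idem P) (k : ℕ) : (sF k P).d = 0 :=
  congrArg Cx.re (sC_closed hP k)

theorem sF_even {P : Matrix n n (CF D)} (hP : Idem P) (k : ℕ) : (sF k P).sg = sF k P :=
  congrArg Cx.re (sC_even hP k)

section Bas

variable {Φ : X × ℝ → X} {hΦ : (D.prod (Dif.lin ℝ)).Map D Φ}

theorem BasicC.smul {w : CF D} (h : BasicC Φ hΦ w) (c : ℂ) : BasicC Φ hΦ (c • w) := by
  unfold BasicC at *
  rw [pullC_smul Φ hΦ, h, prC, pullC_smul _ Dif.map_fst]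

theorem BasicM.sC {P : Matrix n n (CF D)} (h : BasicM Φ hΦ P) (k : ℕ) : BasicC Φ hΦ (sC k P) :=
  (h.ch k).smul _

theorem sF_basic {P : Matrix n n (CF D)} (h : BasicM Φ hΦ P) (k : ℕ) : Basic Φ hΦ (sF k P) :=
  (h.sC k).re

end Bas

/-! ### equality modulo differentials of basic odd forms -/

/-- `a - b` is the differential of a basic odd form -/
def Coh (Φ : X × ℝ → X) (hΦ : (D.prod (Dif.lin ℝ)).Map D Φ) (a b : Form D) : Prop :=
  ∃ η : Form D, Basic Φ hΦ η ∧ η.sg = -η ∧ a - b = η.d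

namespace Coh

variable {Φ : X × ℝ → X} {hΦ : (D.prod (Dif.lin ℝ)).Map D Φ} {a b c a' b' : Form D}

theorem basic_neg {w : Form D} (h : Basic Φ hΦ w) : Basic Φ hΦ (-w) := by
  unfold Basic at *
  have h1 := map_neg (Form.pullA Φ hΦ) w
  have h2 := map_neg (Form.pullA (Prod.fst : X × ℝ → X) (Dif.map_fst (D := D) (D' := Dif.lin ℝ))) w
  change Form.pull Φ hΦ (-w) = -Form.pull Φ hΦ w at h1
  rw [h1, h]
  exact h2.symm

theorem basic_add {v w : Form D} (hv : Basic Φ hΦ v) (h : Basic Φ hΦ w) :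
    Basic Φ hΦ (v + w) := by
  unfold Basic at *
  have h1 := map_add (Form.pullA Φ hΦ) v w
  change Form.pull Φ hΦ (v + w) = Form.pull Φ hΦ v + Form.pull Φ hΦ w at h1
  rw [h1, hv, h, H584.pr_add]

theorem basic_smul {w : Form D} (h : Basic Φ hΦ w) (r : ℝ) : Basic Φ hΦ (r • w) := by
  unfold Basic at *
  have h1 := map_smul (Form.pullA Φ hΦ) r w
  change Form.pull Φ hΦ (r • w) = r • Form.pull Φ hΦ w at h1
  rw [h1, h, H584.pr_smul]

theorem basic_mul {v w : Form D} (hv : Basic Φ hΦ v) (h : Basic Φ hΦ w) :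
    Basic Φ hΦ (v * w) := by
  unfold Basic at *
  have h1 := map_mul (Form.pullA Φ hΦ) v w
  change Form.pull Φ hΦ (v * w) = Form.pull Φ hΦ v * Form.pull Φ hΦ w at h1
  rw [h1, hv, h, H584.pr_mul]

theorem basic_zero : Basic Φ hΦ (0 : Form D) := by
  unfold Basic
  rw [H584.pr_zero]
  exact map_zero (Form.pullA Φ hΦ)

theorem refl (a : Form D) : Coh Φ hΦ a a :=
  ⟨0, basic_zero, by rw [Form.sg_zero, neg_zero], by rw [sub_self, Form.d_zero]⟩

theorem of_eq (h : a = b) : Coh Φ hΦ a b := h ▸ refl a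

theorem symm (h : Coh Φ hΦ a b) : Coh Φ hΦ b a := by
  obtain ⟨η, h1, h2, h3⟩ := h
  exact ⟨-η, basic_neg h1, by rw [Form.sg_neg, h2], by rw [Form.d_neg, ← h3, neg_sub]⟩

theorem trans (h : Coh Φ hΦ a b) (h' : Coh Φ hΦ b c) : Coh Φ hΦ a c := by
  obtain ⟨η, h1, h2, h3⟩ := h
  obtain ⟨ξ, k1, k2, k3⟩ := h'
  exact ⟨η + ξ, basic_add h1 k1, by rw [Form.sg_add, h2, k2, neg_add],
    by rw [Form.d_add, ← h3, ← k3, sub_add_sub_cancel]⟩

theorem add (h : Coh Φ hΦ a b) (h' : Coh Φ hΦ a' b') : Coh Φ hΦ (a + a') (b + b') := by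
  obtain ⟨η, h1, h2, h3⟩ := h
  obtain ⟨ξ, k1, k2, k3⟩ := h'
  exact ⟨η + ξ, basic_add h1 k1, by rw [Form.sg_add, h2, k2, neg_add],
    by rw [Form.d_add, ← h3, ← k3, add_sub_add_comm]⟩

theorem neg (h : Coh Φ hΦ a b) : Coh Φ hΦ (-a) (-b) := by
  obtain ⟨η, h1, h2, h3⟩ := h
  exact ⟨-η, basic_neg h1, by rw [Form.sg_neg, h2], by rw [Form.d_neg, ← h3, neg_sub_neg, neg_sub]⟩

theorem sub (h : Coh Φ hΦ a b) (h' : Coh Φ hΦ a' b') : Coh Φ hΦ (a - a') (b - b') := by
  rw [sub_eq_add_neg, sub_eq_add_neg]; exact h.add h'.neg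

theorem smul (h : Coh Φ hΦ a b) (r : ℝ) : Coh Φ hΦ (r • a) (r • b) := by
  obtain ⟨η, h1, h2, h3⟩ := h
  exact ⟨r • η, basic_smul h1 r, by rw [Form.sg_smul, h2, smul_neg],
    by rw [Form.d_smul, ← h3, smul_sub]⟩

/-- multiplication with closed basic even forms -/
theorem mul_left (h : Coh Φ hΦ a b) (hc : c.d = 0) (hc' : c.sg = c) (hcb : Basic Φ hΦ c) :
    Coh Φ hΦ (c * a) (c * b) := by
  obtain ⟨η, h1, h2, h3⟩ := h
  exact ⟨c * η, basic_mul hcb h1, by rw [Form.sg_mul, hc', h2, mul_neg],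
    by rw [Form.d_mul, hc, zero_mul, zero_add, hc', ← h3, mul_sub]⟩

theorem mul_right (h : Coh Φ hΦ a b) (hc : c.d = 0) (hcb : Basic Φ hΦ c) (hc' : c.sg = c) :
    Coh Φ hΦ (a * c) (b * c) := by
  rw [← Form.mul_comm_of_even hc' a, ← Form.mul_comm_of_even hc' b]
  exact h.mul_left hc hc' hcb

end Coh

/-! ### the relations -/

section Rel

variable {Φ : X × ℝ → X} {hΦ : (D.prod (Dif.lin ℝ)).Map D Φ}

theorem KC_smul (c : ℂ) (w : CF (D.prod (Dif.lin ℝ))) : KC (c • w) = c • KC w :=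
  Cx.mapf_smul (A := Form (D.prod (Dif.lin ℝ))) (B := Form D) Form.K Form.K_add Form.K_smul c w

theorem KC_sg (w : CF (D.prod (Dif.lin ℝ))) : GDA.sg (KC w) = -KC (GDA.sg w) := by
  ext1
  · exact H584.K_sg w.re
  · exact H584.K_sg w.im

theorem sg_Tiso {P : Matrix n n (CF D)} {Q : Matrix m m (CF D)} {a : Matrix m n (CF D)}
    {b : Matrix n m (CF D)} (h : IsoData P Q a b) (k : ℕ) :
    GDA.sg (Tiso k P Q a b) = -Tiso k P Q a b := by
  have h1 : IsoData (P.map prC) (Q.map prC) (a.map prC) (b.map prC) :=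
    h.map prC (pullC_sg _ Dif.map_fst)
  rw [Tiso, KC_sg, ev_ch (idem_rotM sg_cosF sg_sinF cosF_sinF h1)]

/-- isomorphic bundles have the same Chern character -/
theorem coh_iso {P : Matrix n n (CF D)} {Q : Matrix m m (CF D)} {a : Matrix m n (CF D)}
    {b : Matrix n m (CF D)} (h : IsoData P Q a b) (hP : BasicM Φ hΦ P) (hQ : BasicM Φ hΦ Q)
    (ha : BasicM Φ hΦ a) (hb : BasicM Φ hΦ b) (k : ℕ) : Coh Φ hΦ (sF k Q) (sF k P) := by
  refine ⟨(nrm k • Tiso k P Q a b).re, (((hP.Tiso hQ ha hb k)).smul _).re, ?_, ?_⟩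
  · have h1 : GDA.sg (nrm k • Tiso k P Q a b) = -(nrm k • Tiso k P Q a b) := by
      rw [sg_smulC, sg_Tiso h, smul_neg]
    exact congrArg Cx.re h1
  · have h1 : sC k Q - sC k P = GDA.d (nrm k • Tiso k P Q a b) := by
      rw [mapA_smulC, ← ch_iso h, smul_sub]
      rfl
    exact congrArg Cx.re h1

theorem BasicM.mul {l : Type*} [Fintype l] {P : Matrix n m (CF D)} {Q : Matrix m l (CF D)}
    (hP : BasicM Φ hΦ P) (hQ : BasicM Φ hΦ Q) : P.map (pullC Φ hΦ) * Q.map (pullC Φ hΦ) =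
      P.map prC * Q.map prC := by
  rw [hP]
  have : Q.map (pullC Φ hΦ) = Q.map prC := hQ
  rw [this]

theorem BasicM.mul' {l : Type*} [Fintype l] [DecidableEq l] {P : Matrix n m (CF D)}
    {Q : Matrix m l (CF D)} (hP : BasicM Φ hΦ P) (hQ : BasicM Φ hΦ Q) :
    BasicM Φ hΦ (P * Q) := by
  unfold BasicM
  rw [Matrix.map_mul, Matrix.map_mul]
  exact hP.mul hQ

theorem BasicM.add {P Q : Matrix n m (CF D)} (hP : BasicM Φ hΦ P) (hQ : BasicM Φ hΦ Q) :
    BasicM Φ hΦ (P + Q) := by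
  unfold BasicM at *
  rw [Matrix.map_add _ (map_add _), Matrix.map_add _ (map_add _), hP, hQ]

theorem BasicM.cj {P : Matrix n m (CF D)} (hP : BasicM Φ hΦ P) : BasicM Φ hΦ (cj P) := by
  unfold BasicM at *
  ext1 i j
  have h := congrFun (congrFun hP i) j
  rw [Matrix.map_apply, Matrix.map_apply] at h
  have h1 := congrArg Cx.conj h
  rw [Matrix.map_apply, Matrix.map_apply]
  change pullC Φ hΦ (Cx.conj (P i j)) = prC (Cx.conj (P i j))
  have e1 : ∀ w : CF D, pullC Φ hΦ (Cx.conj w) = Cx.conj (pullC Φ hΦ w) := fun w =>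
    Cx.mapf_conj (A := Form D) (B := Form _) (Form.pull Φ hΦ)
      (fun a => map_neg (Form.pullA Φ hΦ) a) w
  have e2 : ∀ w : CF D, prC (Cx.conj w) = Cx.conj (prC w) := fun w =>
    Cx.mapf_conj (A := Form D) (B := Form _) (Form.pull Prod.fst Dif.map_fst)
      (fun a => map_neg (Form.pullA Prod.fst Dif.map_fst) a) w
  rw [e1, e2, h1]

theorem basicM_zero : BasicM Φ hΦ (0 : Matrix n m (CF D)) := by
  unfold BasicM
  ext1 i j
  simp only [Matrix.map_apply, Matrix.zero_apply, map_zero]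

theorem BasicM.fromBlocks {P : Matrix n n (CF D)} {Q : Matrix m m (CF D)}
    (hP : BasicM Φ hΦ P) (hQ : BasicM Φ hΦ Q) : BasicM Φ hΦ (fromBlocks P 0 0 Q) := by
  unfold BasicM at *
  rw [Matrix.fromBlocks_map, Matrix.fromBlocks_map, hP, hQ]
  have h0 := basicM_zero (Φ := Φ) (hΦ := hΦ) (n := n) (m := m)
  have h1 := basicM_zero (Φ := Φ) (hΦ := hΦ) (n := m) (m := n)
  unfold BasicM at h0 h1
  rw [h0, h1]

theorem BasicM.fromRows {P : Matrix n n (CF D)} {Q : Matrix m n (CF D)}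
    (hP : BasicM Φ hΦ P) (hQ : BasicM Φ hΦ Q) : BasicM Φ hΦ (fromRows P Q) := by
  unfold BasicM at *
  ext1 i j
  rcases i with i | i
  · exact congrFun (congrFun hP i) j
  · exact congrFun (congrFun hQ i) j

theorem BasicM.fromCols {P : Matrix n n (CF D)} {Q : Matrix n m (CF D)}
    (hP : BasicM Φ hΦ P) (hQ : BasicM Φ hΦ Q) : BasicM Φ hΦ (fromCols P Q) := by
  unfold BasicM at *
  ext1 i j
  rcases j with j | j
  · exact congrFun (congrFun hP i) j
  · exact congrFun (congrFun hQ i) j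

theorem sC_fromBlocks (P : Matrix n n (CF D)) (Q : Matrix m m (CF D)) (k : ℕ) :
    sC k (fromBlocks P 0 0 Q) = sC k P + sC k Q := by
  rw [sC, ch_fromBlocks, smul_add]
  rfl

theorem sF_fromBlocks (P : Matrix n n (CF D)) (Q : Matrix m m (CF D)) (k : ℕ) :
    sF k (fromBlocks P 0 0 Q) = sF k P + sF k Q := by
  rw [sF, sC_fromBlocks]
  rfl

/-- additivity for orthogonal sums -/
theorem coh_add {P Q : Matrix n n (CF D)} (hP : Idem P) (hQ : Idem Q) (h1 : P * Q = 0)
    (h2 : Q * P = 0) (bP : BasicM Φ hΦ P) (bQ : BasicM Φ hΦ Q) (k : ℕ) :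
    Coh Φ hΦ (sF k (P + Q)) (sF k P + sF k Q) := by
  have h := coh_iso (IsoData.of_add hP hQ h1 h2) (bP.add bQ) (bP.fromBlocks bQ) (bP.fromRows bQ)
    (bP.fromCols bQ) k
  rw [sF_fromBlocks] at h
  exact h.symm

/-- two idempotents with the same image -/
theorem coh_image {P Q : Matrix n n (CF D)} (hP : Idem P) (hQ : Idem Q) (h1 : P * Q = Q)
    (h2 : Q * P = P) (bP : BasicM Φ hΦ P) (bQ : BasicM Φ hΦ Q) (k : ℕ) :
    Coh Φ hΦ (sF k Q) (sF k P) :=
  coh_iso (IsoData.of_image hP hQ h1 h2) bP bQ bP bQ k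

/-- an isomorphism given by two mutually inverse maps -/
theorem coh_of {P : Matrix n n (CF D)} {Q : Matrix m m (CF D)} {a : Matrix m n (CF D)}
    {b : Matrix n m (CF D)} (hP : Idem P) (hQ : Idem Q) (ha : Ev a) (hb : Ev b) (hab : a * b = Q)
    (hba : b * a = P) (bP : BasicM Φ hΦ P) (bQ : BasicM Φ hΦ Q) (ba : BasicM Φ hΦ a)
    (bb : BasicM Φ hΦ b) (k : ℕ) : Coh Φ hΦ (sF k Q) (sF k P) :=
  coh_iso (IsoData.of hP hQ ha hb hab hba) bP bQ (bQ.mul' ba) (bP.mul' bb) k

/-- conjugation -/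
theorem sC_cj (P : Matrix n n (CF D)) (k : ℕ) :
    sC k (cj P) = ((-1 : ℂ) ^ k) • Cx.conj (sC k P) := by
  rw [sC, ch_cj, sC, Cx.conj_smul, conj_nrm, smul_smul, ← mul_assoc, ← mul_pow]
  norm_num

theorem smulC_re_of_real (r : ℝ) (w : CF D) : ((r : ℂ) • w).re = r • w.re := by
  rw [Cx.smul_re, Complex.ofReal_re, Complex.ofReal_im, zero_smul, sub_zero]

theorem sF_cj (P : Matrix n n (CF D)) (k : ℕ) : sF k (cj P) = ((-1 : ℝ) ^ k) • sF k P := by
  have h : ((-1 : ℂ) ^ k) = (((-1 : ℝ) ^ k : ℝ) : ℂ) := by push_cast; rfl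
  rw [sF, sC_cj, h, smulC_re_of_real]
  rfl

/-- hermitian idempotents have real Chern character forms -/
theorem sC_of_herm {P : Matrix n n (CF D)} (hP : Idem P) (h : Pᵀ = cj P) (k : ℕ) :
    sC k P = Cx.of (sF k P) := by
  have h1 := conj_ch_of_herm hP h k
  have h2 : sC k P = (((1 / (2 * Real.pi)) ^ k : ℝ) : ℂ) • (Complex.I ^ k • ch k P) := by
    rw [sC, nrm, smul_smul]
    congr 1
    push_cast
    rw [← mul_pow]
    congr 1
    ring
  have h3 : Cx.conj (sC k P) = sC k P := by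
    rw [h2, Cx.conj_smul, h1, Complex.conj_ofReal]
  have h4 : -(sC k P).im = (sC k P).im := congrArg Cx.im h3
  have h5 : (sC k P).im = 0 := by
    have h6 : (2 : ℝ) • (sC k P).im = 0 := by
      rw [two_smul]
      nth_rewrite 1 [← h4]
      exact neg_add_cancel _
    exact (smul_eq_zero.1 h6).resolve_left two_ne_zero
  ext1
  · rfl
  · exact h5

/-- the Chern character of a tensor product -/
theorem sC_kr {P : Matrix n n (CF D)} {Q : Matrix m m (CF D)} (hP : Idem P) (hQ : Idem Q)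
    (k : ℕ) : sC k (kr P Q) =
      ∑ j ∈ Finset.range (k + 1), (k.choose j) • (sC j P * sC (k - j) Q) := by
  rw [sC, ch_kr hP hQ, Finset.smul_sum]
  refine Finset.sum_congr rfl fun j hj => ?_
  have h1 : nrm k = nrm j * nrm (k - j) := by
    rw [← nrm_add, Nat.add_sub_cancel' (Nat.lt_succ_iff.1 (Finset.mem_range.1 hj))]
  rw [sC, sC, smul_mul_assoc, mul_smul_comm, smul_smul, smul_comm, h1]

theorem sC_rankOne {P : Matrix n n (CF D)} (hP : Idem P) (h : RankOne P) (k : ℕ) :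
    sC k P = sC 1 P ^ k := by
  rw [sC, sC, ch_rankOne hP h, smul_pow, nrm, nrm, pow_one]

theorem of_mul_re (a : Form D) (w : CF D) : (Cx.of a * w).re = a * w.re := by
  rw [Cx.mul_re, Cx.of_re, Cx.of_im, zero_mul, sub_zero]

theorem nsmulC_re (j : ℕ) (w : CF D) : (j • w).re = j • w.re := by
  induction j with
  | zero => rw [zero_smul, zero_smul]; rfl
  | succ j ih => rw [succ_nsmul, succ_nsmul, Cx.add_re, ih]

/-- the Chern character of the product with a hermitian line -/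
theorem sF_line {P : Matrix n n (CF D)} {Q : Matrix m m (CF D)} (hP : Idem P) (hQ : Idem Q)
    (h1 : RankOne P) (h2 : Pᵀ = cj P) (k : ℕ) : sF k (kr P Q) =
      ∑ j ∈ Finset.range (k + 1), (k.choose j) • (sF 1 P ^ j * sF (k - j) Q) := by
  have h3 : ∀ j, sC j P = Cx.of (sF 1 P ^ j) := fun j => by
    rw [sC_rankOne hP h1, sC_of_herm hP h2, map_pow]
  have h4 : ∀ s : Finset ℕ, ∀ g : ℕ → CF D, (∑ j ∈ s, g j).re = ∑ j ∈ s, (g j).re := by
    intro s g
    induction s using Finset.induction_on with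
    | empty => rfl
    | insert a s ha ih => rw [Finset.sum_insert ha, Finset.sum_insert ha, Cx.add_re, ih]
  rw [sF, sC_kr hP hQ, h4]
  refine Finset.sum_congr rfl fun j _ => ?_
  rw [nsmulC_re, h3, of_mul_re]
  rfl

theorem sF_rankOne {P : Matrix n n (CF D)} (hP : Idem P) (h1 : RankOne P) (h2 : Pᵀ = cj P)
    (k : ℕ) : sF k P = sF 1 P ^ k := by
  rw [sF, sC_rankOne hP h1, sC_of_herm hP h2, ← map_pow]
  rfl

/-- degree zero: the rank -/
theorem sF_zero {P : Matrix n n (CF D)} : sF 0 P = (trace P).re := by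
  rw [sF, sC, nrm_zero, one_smul, ch, pow_zero, mul_one]

theorem ch_zero_of_trace {P : Matrix n n (CF D)} {r : ℝ} (h : trace P = Cx.of (algebraMap ℝ _ r)) :
    sF 0 P = algebraMap ℝ (Form D) r := by
  rw [sF_zero, h]
  rfl

/-- real idempotents have no odd Chern character forms -/
theorem sF_real_odd (P : Matrix n n (Form D)) {k : ℕ} (hk : Odd k) : sF k (P.map Cx.of) = 0 := by
  have h1 : cj (P.map Cx.of) = P.map (Cx.of : Form D →+* CF D) := by
    ext1 i j
    exact Cx.conj_of _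
  have h := sF_cj (P.map (Cx.of : Form D →+* CF D)) k
  rw [h1, hk.neg_one_pow, neg_one_smul] at h
  have h6 : (2 : ℝ) • sF k (P.map (Cx.of : Form D →+* CF D)) = 0 := by
    rw [two_smul]
    nth_rewrite 1 [h]
    exact neg_add_cancel _
  exact (smul_eq_zero.1 h6).resolve_left two_ne_zero

/-- `T ⊗ ℂ = X + conj X`, with `X` given by the projector along `conj X` -/
theorem coh_conj_sum {P : Matrix n n (CF D)} (hP : Idem P) (h1 : P * cj P = 0)
    (h2 : cj P * P = 0) (bP : BasicM Φ hΦ P) (k : ℕ) :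
    Coh Φ hΦ (sF k (P + cj P)) (sF k P + ((-1 : ℝ) ^ k) • sF k P) := by
  rw [← sF_cj]
  exact coh_add hP hP.cj h1 h2 bP bP.cj k

end Rel

end Vale.Agent.P231.ChW
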