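import Vale.Agent.P231.ChW.Gda

/-!
# P231, stage 2, block X1 (part 2): tensor products and rank one idempotents
-/

set_option linter.unusedSectionVars false
set_option linter.unusedVariables false

open Matrix

namespace Vale.Agent.P231.ChW

section

variable {A : Type*} [Ring A] [GDA A]
variable {m m' m'' n n' n'' : Type*} [Fintype m] [Fintype m'] [Fintype m''] [Fintype n]
  [Fintype n'] [Fintype n'']

/-- Kronecker product -/
def kr (M : Matrix m m' A) (N : Matrix n n' A) : Matrix (m × n) (m' × n') A :=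
  fun i j => M i.1 j.1 * N i.2 j.2

theorem kr_apply (M : Matrix m m' A) (N : Matrix n n' A) (i j) :
    kr M N i j = M i.1 j.1 * N i.2 j.2 := rfl

theorem trace_kr (M : Matrix m m A) (N : Matrix n n A) :
    trace (kr M N) = trace M * trace N := by
  simp only [trace, diag, kr_apply]
  rw [Fintype.sum_prod_type, Finset.sum_mul_sum]

theorem kr_mul_aux (M : Matrix m m' A) (N : Matrix n n' A) (M' : Matrix m' m'' A)
    (N' : Matrix n' n'' A) (h : ∀ a b j k, N a b * M' j k = M' j k * N a b) :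
    kr M N * kr M' N' = kr (M * M') (N * N') := by
  ext i j
  simp only [Matrix.mul_apply, kr_apply]
  rw [Fintype.sum_prod_type, Finset.sum_mul_sum]
  refine Finset.sum_congr rfl fun a _ => Finset.sum_congr rfl fun b _ => ?_
  rw [mul_assoc, ← mul_assoc (N i.2 b), h, mul_assoc, ← mul_assoc (M i.1 a)]

theorem kr_mul_left {M : Matrix m m' A} {N : Matrix n n' A} {M' : Matrix m' m'' A}
    {N' : Matrix n' n'' A} (h : Ev N) : kr M N * kr M' N' = kr (M * M') (N * N') :=
  kr_mul_aux _ _ _ _ fun a b j k => h.comm _ _ _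

theorem kr_mul_right {M : Matrix m m' A} {N : Matrix n n' A} {M' : Matrix m' m'' A}
    {N' : Matrix n' n'' A} (h : Ev M') : kr M N * kr M' N' = kr (M * M') (N * N') :=
  kr_mul_aux _ _ _ _ fun a b j k => (h.comm _ _ _).symm

theorem kr_neg_right (M : Matrix m m' A) (N : Matrix n n' A) : kr M (-N) = -kr M N := by
  ext i j; simp [kr_apply]

theorem kr_mul_odd {M : Matrix m m' A} {N : Matrix n n' A} {M' : Matrix m' m'' A}
    {N' : Matrix n' n'' A} (h : Od N) (h' : Od M') :
    kr M N * kr M' N' = -kr (M * M') (N * N') := by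
  ext i j
  simp only [Matrix.mul_apply, kr_apply, Matrix.neg_apply]
  rw [Fintype.sum_prod_type, Finset.sum_mul_sum, ← Finset.sum_neg_distrib]
  refine Finset.sum_congr rfl fun a _ => ?_
  rw [← Finset.sum_neg_distrib]
  refine Finset.sum_congr rfl fun b _ => ?_
  rw [mul_assoc, ← mul_assoc (N i.2 b), h.anticomm h', neg_mul, mul_neg, mul_assoc,
    ← mul_assoc (M i.1 a)]

theorem dM_kr (M : Matrix m m' A) (N : Matrix n n' A) :
    dM (kr M N) = kr (dM M) N + kr (sM M) (dM N) := by
  ext i j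
  simp only [dM_apply, kr_apply, Matrix.add_apply, GDA.d_mul, sM_apply]

theorem Ev.kr {M : Matrix m m' A} {N : Matrix n n' A} (hM : Ev M) (hN : Ev N) : Ev (kr M N) := by
  unfold Ev
  ext i j
  simp only [sM_apply, kr_apply, map_mul, hM.apply, hN.apply]

@[simp] theorem kr_zero_left (N : Matrix n n' A) : kr (0 : Matrix m m' A) N = 0 := by
  ext i j; simp [kr_apply]

@[simp] theorem kr_zero_right (M : Matrix m m' A) : kr M (0 : Matrix n n' A) = 0 := by
  ext i j; simp [kr_apply]

variable [DecidableEq m] [DecidableEq n]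

theorem Idem.kr {P : Matrix m m A} {Q : Matrix n n A} (hP : Idem P) (hQ : Idem Q) :
    Idem (kr P Q) :=
  ⟨hP.ev.kr hQ.ev, by rw [kr_mul_left hQ.ev, hP.idem, hQ.idem]⟩

theorem dd_kr {P : Matrix m m A} {Q : Matrix n n A} (hP : Idem P) (hQ : Idem Q) :
    dd (ChW.kr P Q) = ChW.kr (dd P) Q + ChW.kr (dM P * P) (Q * dM Q)
      - ChW.kr (P * dM P) (dM Q * Q) + ChW.kr P (dd Q) := by
  rw [dd, dM_kr, hP.ev, mul_add, add_mul, add_mul, kr_mul_left hQ.ev, kr_mul_left hQ.ev,
    kr_mul_odd hQ.ev.dM hP.ev.dM, kr_mul_right hP.ev, hQ.idem, hP.idem]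
  change ChW.kr (dd P) Q + _ + (_ + ChW.kr P (dd Q)) = _
  abel

theorem om_kr {P : Matrix m m A} {Q : Matrix n n A} (hP : Idem P) (hQ : Idem Q) :
    om (ChW.kr P Q) = ChW.kr (om P) Q + ChW.kr P (om Q) := by
  rw [om, dd_kr hP hQ, mul_add, mul_sub, mul_add, kr_mul_left hQ.ev, kr_mul_left hQ.ev,
    kr_mul_left hQ.ev, kr_mul_left hQ.ev, hP.idem, hQ.idem, ← mul_assoc P (dM P), hP.mul_d_mul,
    ← mul_assoc Q (dM Q), hQ.mul_d_mul, kr_zero_left, kr_zero_right, add_zero, sub_zero]
  rfl

theorem kr_pow_left {P : Matrix m m A} {Q : Matrix n n A} (hP : Idem P) (hQ : Idem Q) (j : ℕ) :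
    ChW.kr P Q * ChW.kr (om P) Q ^ j = ChW.kr (P * om P ^ j) Q := by
  induction j with
  | zero => rw [pow_zero, pow_zero, mul_one, mul_one]
  | succ j ih => rw [pow_succ, ← mul_assoc, ih, kr_mul_left hQ.ev, hQ.idem, mul_assoc, ← pow_succ]

theorem kr_pow {P : Matrix m m A} {Q : Matrix n n A} (hP : Idem P) (hQ : Idem Q) (j i : ℕ) :
    ChW.kr P Q * (ChW.kr (om P) Q ^ j * ChW.kr P (om Q) ^ i) =
      ChW.kr (P * om P ^ j) (Q * om Q ^ i) := by
  rw [← mul_assoc, kr_pow_left hP hQ]
  have hc : Commute P (om P) := by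
    change P * om P = om P * P
    rw [hP.mul_om, hP.om_mul]
  have h1 : P * om P ^ j * P = P * om P ^ j := by
    rw [mul_assoc, ← (hc.pow_right j).eq, ← mul_assoc, hP.idem]
  induction i with
  | zero => rw [pow_zero, pow_zero, mul_one, mul_one]
  | succ i ih => rw [pow_succ, ← mul_assoc, ih, kr_mul_right hP.ev, h1, mul_assoc, ← pow_succ]

/-- multiplicativity of the Chern character -/
theorem ch_kr {P : Matrix m m A} {Q : Matrix n n A} (hP : Idem P) (hQ : Idem Q) (k : ℕ) :
    ch k (ChW.kr P Q) =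
      ∑ j ∈ Finset.range (k + 1), (k.choose j) • (ch j P * ch (k - j) Q) := by
  have hc : Commute (ChW.kr (om P) Q) (ChW.kr P (om Q)) := by
    change _ * _ = _ * _
    rw [kr_mul_left hQ.ev, kr_mul_right hP.ev_om, hP.om_mul, hP.mul_om, hQ.om_mul, hQ.mul_om]
  rw [(hP.kr hQ).ch_eq, om_kr hP hQ, hc.add_pow, Finset.mul_sum, trace_sum]
  refine Finset.sum_congr rfl fun j _ => ?_
  have h1 : ChW.kr P Q * (ChW.kr (om P) Q ^ j * ChW.kr P (om Q) ^ (k - j) *
      (k.choose j : Matrix (m × n) (m × n) A)) =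
      (k.choose j) • (ChW.kr P Q * (ChW.kr (om P) Q ^ j * ChW.kr P (om Q) ^ (k - j))) := by
    rw [← mul_assoc, nsmul_eq_mul, (Nat.cast_commute _ _).eq]
  rw [h1, trace_smul, kr_pow hP hQ, trace_kr, hP.ch_eq, hQ.ch_eq]

/-! ### rank one -/

/-- all `2 × 2` minors vanish and the trace is one -/
structure RankOne (P : Matrix n n A) : Prop where
  minors : ∀ i j k l, P i j * P k l = P i l * P k j
  tr : trace P = 1

theorem om_rankOne {P : Matrix n n A} (hP : Idem P) (h : RankOne P) (i l : n) :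
    om P i l = ch 1 P * P i l := by
  have h0 : ch 1 P = trace (dd P * P) := by
    rw [ch, pow_one, hP.ev.trace_comm]
  have h1 : om P = P * dd P * P := by
    rw [← hP.om_mul, om]
  rw [h1, h0, Matrix.mul_apply]
  simp only [Matrix.mul_apply, Finset.sum_mul, trace, diag]
  rw [Finset.sum_comm]
  refine Finset.sum_congr rfl fun j _ => Finset.sum_congr rfl fun k _ => ?_
  rw [hP.ev.comm i j (dd P j k), mul_assoc, mul_assoc, h.minors, hP.ev.comm i l]

theorem ev_ch {P : Matrix n n A} (hP : Idem P) (k : ℕ) : GDA.sg (ch k P) = ch k P := by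
  have h := (hP.ev.mul (hP.ev_dd.pow k))
  rw [ch, trace, map_sum]
  exact Finset.sum_congr rfl fun i _ => h.apply _ _

theorem ch_rankOne {P : Matrix n n A} (hP : Idem P) (h : RankOne P) (k : ℕ) :
    ch k P = ch 1 P ^ k := by
  have h2 : ∀ i l, (P * om P ^ k) i l = ch 1 P ^ k * P i l := by
    induction k with
    | zero => intro i l; rw [pow_zero, pow_zero, mul_one, one_mul]
    | succ k ih =>
      intro i l
      rw [pow_succ, ← mul_assoc, Matrix.mul_apply]
      simp only [ih, om_rankOne hP h]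
      have h3 : ∀ j, ch 1 P ^ k * P i j * (ch 1 P * P j l) =
          ch 1 P ^ (k + 1) * (P i j * P j l) := fun j => by
        rw [pow_succ, mul_assoc, ← mul_assoc (P i j), hP.ev.comm i j (ch 1 P), mul_assoc,
          mul_assoc]
      simp only [h3]
      rw [← Finset.mul_sum, ← Matrix.mul_apply, hP.idem]
  rw [hP.ch_eq, trace]
  simp only [diag, h2]
  rw [← Finset.mul_sum]
  have h4 : ∑ i, P i i = 1 := h.tr
  rw [h4, mul_one]

end

end Vale.Agent.P231.ChW
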